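import Vale.Agent.P338.R2.H806.Ev

/-!
The `Run` statement of a loop program.
-/

namespace Vale.Agent.P338.R2.H806

open Vale.Agent.P338.R2.H898

variable {M F α : Type} [DecidableEq F]

namespace LP

open Prog

theorem eval_congr_m {m m' : F → ℕ} {w : List α} {e : α} (a : LP F α)
    (h : ∀ r ∈ a.uses, m r = m' r) (s : PS F α) : eval m w e a s = eval m' w e a s := by
  induction a generalizing s with
  | nop => rfl
  | emit a => rfl
  | copy => rfl
  | skip => rfl
  | inc r => simp only [eval]; rw [h r (by simp [uses])]
  | seq a b iha ihb =>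
    simp only [eval]
    rw [iha (fun r hr => h r (Finset.mem_union_left _ hr)),
      ihb (fun r hr => h r (Finset.mem_union_right _ hr))]
  | loop r a ih =>
    have h1 : eval m w e a = eval m' w e a :=
      funext (ih (fun r hr => h r (Finset.mem_insert_of_mem hr)))
    simp only [eval]
    rw [h1, h r (by simp [uses])]
  | forReg r a ih =>
    have h1 : eval m w e a = eval m' w e a :=
      funext (ih (fun r hr => h r (Finset.mem_insert_of_mem hr)))
    simp only [eval]
    rw [h1]
  | forCo r a ih =>
    have h1 : eval m w e a = eval m' w e a :=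
      funext (ih (fun r hr => h r (Finset.mem_insert_of_mem hr)))
    simp only [eval]
    rw [h1, h r (by simp [uses])]

theorem bd_congr_m {m m' : F → ℕ} (a : LP F α)
    (h : ∀ r ∈ a.uses, m r = m' r) : bd m a = bd m' a := by
  induction a with
  | nop => rfl
  | emit a => rfl
  | copy => rfl
  | skip => rfl
  | inc r => rfl
  | seq a b iha ihb =>
    simp only [bd]
    rw [iha (fun r hr => h r (Finset.mem_union_left _ hr)),
      ihb (fun r hr => h r (Finset.mem_union_right _ hr))]
  | loop r a ih =>
    simp only [bd]
    rw [ih (fun r hr => h r (Finset.mem_insert_of_mem hr)), h r (by simp [uses])]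
  | forReg r a ih =>
    simp only [bd]
    rw [ih (fun r hr => h r (Finset.mem_insert_of_mem hr)), h r (by simp [uses])]
  | forCo r a ih =>
    simp only [bd]
    rw [ih (fun r hr => h r (Finset.mem_insert_of_mem hr)), h r (by simp [uses])]

/-- The program of a pass: run the loop program, rewind the input and the output. -/
def passP [DecidableEq α] (I O : F) (one mk e : α) (a : LP F α) : Prog M F α :=
  .seq (compile I O one mk e a) (.seq (opP I .rew) (opP O .rew))

/-- The `Run` statement of a pass. The rulers `r` of the program are files of length `m r`; those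
used for `forReg` and `forCo` consist of the symbol `one`. -/
theorem run_pass [DecidableEq α] {d : α} (a : LP F α) (hwf : a.WF) (I O : F) (hIO : O ≠ I)
    (hI : I ∉ a.uses) (hO : O ∉ a.uses) (one mk e : α) (hmk : one ≠ mk) (mem : M)
    (z : F → Zip α) (w : List α) (m : F → ℕ) (hzI : z I = ⟨[], w⟩) (hzO : z O = ⟨[], []⟩)
    (hz : ∀ r ∈ a.uses, ∃ c, z r = ⟨[], c⟩ ∧ c.length = m r ∧
      (r ∈ a.marks → c = List.replicate (m r) one))
    (hm : ∀ r ∈ a.uses, 0 < m r) {n : ℕ} {out : List α} {v0 : F → ℕ}
    (hv0 : ∀ r ∈ a.uses, v0 r = 0)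
    (h : Ev m w e a v0 0 v0 n out) :
    Run d (passP I O one mk e a) ⟨mem, z⟩ (bd m a + 2)
      ⟨mem, Function.update z O ⟨[], out⟩⟩ := by
  set C : F → List α := fun f => (z f).r with hC
  have hCm : ∀ r ∈ a.uses, (C r).length = m r := by
    intro r hr
    obtain ⟨c, h1, h2, _⟩ := hz r hr
    simp [hC, h1, h2]
  have hstart : toZ C I O w a.uses z ⟨v0, 0, []⟩ = z := by
    funext f
    unfold toZ
    by_cases h1 : f = I
    · subst h1
      simp [hzI, atp]
    · by_cases h2 : f = O
      · subst h2
        simp [h1, hzO]
      · by_cases h3 : f ∈ a.uses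
        · obtain ⟨c, h4, _, _⟩ := hz f h3
          simp [h1, h2, h3, hC, atp, h4, hv0 f h3]
        · simp [h1, h2, h3]
  have hev : eval (fun f => (C f).length) w e a ⟨v0, 0, []⟩ = ⟨v0, n, out⟩ := by
    rw [eval_congr_m (m' := m) a hCm]
    simpa using h []
  have hrun := (compile_run (d := d) C I O hIO w one mk e hmk mem a hwf a.uses subset_rfl hI hO
    (by
      intro r hr
      obtain ⟨c, h1, h2, h3⟩ := hz r (marks_subset a hr)
      simp only [hC, h1]
      rw [h2]
      exact h3 hr) z ⟨v0, 0, []⟩ (by
      intro r hr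
      rw [hCm r hr]
      show v0 r < m r
      rw [hv0 r hr]
      exact hm r hr)).1
  rw [hstart, hev, bd_congr_m (m' := m) a hCm] at hrun
  refine (Run.seq hrun (Run.seq (t := 1) (t' := 1) (run_opP mem _ _ I .rew rfl)
    (run_opP mem _ _ O .rew ?_)))
  rw [toZ_I, rew_atp, update_toZ_I, toZ_O hIO]
  have h5 : (Op.app d .rew ⟨out.reverse, []⟩ : Zip α) = ⟨[], out⟩ := by simp [Op.app]
  rw [h5]
  funext f
  by_cases h2 : f = O
  · subst h2
    simp
  · rw [Function.update_of_ne h2, Function.update_of_ne h2]
    have := congrFun hstart f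
    unfold toZ at this ⊢
    by_cases h1 : f = I
    · simp only [h1, if_true] at this ⊢
      exact this
    · simp only [h1, h2, if_false] at this ⊢
      exact this

end LP

end Vale.Agent.P338.R2.H806
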