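import Vale.Agent.P338.R2.H806.Loop

/-!
Rules for evaluating loop programs.
-/

namespace Vale.Agent.P338.R2.H806

open Vale.Agent.P338.R2.H898

variable {M F α : Type} [DecidableEq F]

namespace LP

variable {m : F → ℕ} {w : List α} {e : α}

/-- Constant repetition. -/
def rep : ℕ → LP F α → LP F α
  | 0, _ => nop
  | n + 1, a => seq a (rep n a)

/-- `a` changes the registers from `v` to `v'`, moves the input position from `p` to `p + n` and
appends `out` to the output. -/
def Ev (m : F → ℕ) (w : List α) (e : α) (a : LP F α) (v : F → ℕ) (p : ℕ) (v' : F → ℕ) (n : ℕ)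
    (out : List α) : Prop := ∀ o, eval m w e a ⟨v, p, o⟩ = ⟨v', p + n, o ++ out⟩

theorem Ev.congr {a : LP F α} {v v' v'' : F → ℕ} {p n n' : ℕ} {out out' : List α}
    (h : Ev m w e a v p v' n out) (hv : v' = v'') (hn : n = n') (ho : out = out') :
    Ev m w e a v p v'' n' out' := by
  subst hv hn ho
  exact h

theorem ev_nop (v : F → ℕ) (p : ℕ) : Ev m w e nop v p v 0 [] := by
  intro o
  simp [eval]

theorem ev_emit (a : α) (v : F → ℕ) (p : ℕ) : Ev m w e (emit a) v p v 0 [a] := by
  intro o
  simp [eval]

theorem ev_copy (v : F → ℕ) (p : ℕ) : Ev m w e copy v p v 1 [w.getD p e] := by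
  intro o
  simp [eval]

theorem ev_skip (v : F → ℕ) (p : ℕ) : Ev m w e skip v p v 1 [] := by
  intro o
  simp [eval]

theorem ev_inc (r : F) (v : F → ℕ) (p : ℕ) :
    Ev m w e (inc r) v p (Function.update v r ((v r + 1) % m r)) 0 [] := by
  intro o
  simp [eval, PS.set]

theorem Ev.seq {a b : LP F α} {v v1 v2 : F → ℕ} {p n1 n2 : ℕ} {o1 o2 : List α}
    (h1 : Ev m w e a v p v1 n1 o1) (h2 : Ev m w e b v1 (p + n1) v2 n2 o2) :
    Ev m w e (seq a b) v p v2 (n1 + n2) (o1 ++ o2) := by
  intro o
  rw [eval, h1, h2, Nat.add_assoc, List.append_assoc]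

theorem ev_rep {a : LP F α} {v : F → ℕ} {n : ℕ} {out : List α}
    (h : ∀ p, Ev m w e a v p v n out) (k p : ℕ) :
    Ev m w e (rep k a) v p v (k * n) (List.replicate k out).flatten := by
  induction k generalizing p with
  | zero => exact (ev_nop v p).congr rfl (by simp) (by simp)
  | succ k ih =>
    refine ((h p).seq (ih (p + n))).congr rfl (by ring) (by simp [List.replicate_succ])

theorem ev_rep_emit (x : α) (v : F → ℕ) (k p : ℕ) :
    Ev m w e (rep k (emit x)) v p v 0 (List.replicate k x) := by
  refine (ev_rep (fun p => ev_emit x v p) k p).congr rfl (by simp) ?_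
  induction k with
  | zero => rfl
  | succ k ih => simp [List.replicate_succ, ih]

theorem update_zero {v : F → ℕ} {r : F} (h : v r = 0) : Function.update v r 0 = v := by
  rw [← h, Function.update_eq_self]

/-- The general rule for loops, starting from the value `k` of the register. -/
theorem ev_loop_from {r : F} {a : LP F α} (V : ℕ → F → ℕ) (N : ℕ → ℕ) (out : ℕ → List α)
    (k p : ℕ) (hk : k ≤ m r) (v v' : F → ℕ) (hv : Function.update (V k) r k = v)
    (hv' : Function.update (V (m r)) r 0 = v')
    (h : ∀ i, k ≤ i → i < m r → Ev m w e a (Function.update (V i) r i) (p + N i)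
      (Function.update (V (i + 1)) r i) (N (i + 1) - N i) (out i))
    (hN0 : N k = 0) (hN : ∀ i, k ≤ i → i < m r → N i ≤ N (i + 1)) :
    Ev m w e (loop r a) v p v' (N (m r)) ((List.range' k (m r - k)).flatMap out) := by
  intro o
  subst hv
  subst hv'
  rw [eval]
  simp only [Function.update_self]
  have key : ∀ j, j ≤ m r - k →
      ((fun s => (eval m w e a s).set r ((eval m w e a s).v r + 1))^[j]
        (⟨Function.update (V k) r k, p, o⟩ : PS F α)) =
      ⟨Function.update (V (k + j)) r (k + j), p + N (k + j),
        o ++ (List.range' k j).flatMap out⟩ := by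
    intro j
    induction j with
    | zero => intro _; simp [hN0]
    | succ j ih =>
      intro hj
      rw [Function.iterate_succ_apply', ih (by omega)]
      have h1 := h (k + j) (by omega) (by omega) (o ++ (List.range' k j).flatMap out)
      simp only [h1]
      have h2 := hN (k + j) (by omega) (by omega)
      apply PS.ext
      · simp only [PS.set, Function.update_self, Function.update_idem]
        rfl
      · simp only [PS.set]
        rw [← Nat.add_assoc k j 1]
        omega
      · simp only [PS.set]
        rw [List.range'_concat, List.flatMap_append, List.append_assoc]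
        simp
  rw [key _ le_rfl]
  have h3 : k + (m r - k) = m r := by omega
  rw [h3]
  simp [PS.set, Function.update_idem]

/-- The rule for loops starting from `0`, with constant advance. -/
theorem ev_loop {r : F} {a : LP F α} (V : ℕ → F → ℕ) (n : ℕ) (out : ℕ → List α)
    {p : ℕ} {v v' : F → ℕ} (hv : Function.update (V 0) r 0 = v)
    (hv' : Function.update (V (m r)) r 0 = v')
    (h : ∀ i < m r, Ev m w e a (Function.update (V i) r i) (p + i * n)
      (Function.update (V (i + 1)) r i) n (out i)) :
    Ev m w e (loop r a) v p v' (m r * n) ((List.range (m r)).flatMap out) := by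
  have := ev_loop_from (m := m) (w := w) (e := e) (a := a) V (fun i => i * n) out 0 p (Nat.zero_le _)
    v v' hv hv' (fun i _ hi => (h i hi).congr rfl (by rw [Nat.succ_mul]; omega) rfl)
    (by simp) (fun i _ _ => Nat.mul_le_mul_right _ (by omega))
  rw [Nat.sub_zero, ← List.range_eq_range'] at this
  exact this

/-- Loops not changing the registers. -/
theorem ev_loop_same {r : F} {a : LP F α} {v : F → ℕ} (hv : v r = 0) (n : ℕ) (out : ℕ → List α)
    {p : ℕ} (h : ∀ i < m r, Ev m w e a (Function.update v r i) (p + i * n)
      (Function.update v r i) n (out i)) :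
    Ev m w e (loop r a) v p v (m r * n) ((List.range (m r)).flatMap out) :=
  ev_loop (fun _ => v) n out (update_zero hv) (update_zero hv) h

theorem flatMap_replicate_range' (c : ℕ) (x : α) (k n : ℕ) :
    ((List.range' k n).flatMap fun _ => List.replicate c x) = List.replicate (n * c) x := by
  induction n generalizing k with
  | zero => simp
  | succ n ih =>
    rw [List.range'_succ, List.flatMap_cons, ih, Nat.succ_mul, Nat.add_comm (n * c),
      List.replicate_add]

theorem flatMap_replicate_range (c : ℕ) (x : α) (n : ℕ) :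
    ((List.range n).flatMap fun _ => List.replicate c x) = List.replicate (n * c) x := by
  rw [List.range_eq_range']
  exact flatMap_replicate_range' c x 0 n

/-- Loops emitting a constant, starting from any value of the register. -/
theorem ev_loop_const {r : F} {a : LP F α} {v v' : F → ℕ} (hv : v r ≤ m r)
    (hv' : Function.update v r 0 = v') (c : ℕ) (x : α)
    (h : ∀ i p, Ev m w e a (Function.update v r i) p (Function.update v r i) 0
      (List.replicate c x)) (p : ℕ) :
    Ev m w e (loop r a) v p v' 0 (List.replicate ((m r - v r) * c) x) := by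
  have := ev_loop_from (m := m) (w := w) (e := e) (r := r) (a := a) (fun _ => v) (fun _ => 0)
    (fun _ => List.replicate c x) (v r) p hv v v' (Function.update_eq_self r v) hv'
    (fun i _ _ => h i _) rfl (fun _ _ _ => le_rfl)
  rw [flatMap_replicate_range'] at this
  exact this

/-- Loops emitting a constant, starting from `0`. -/
theorem ev_loop_const0 {r : F} {a : LP F α} {v : F → ℕ} (hv : v r = 0) (c : ℕ) (x : α)
    (h : ∀ i p, Ev m w e a (Function.update v r i) p (Function.update v r i) 0
      (List.replicate c x)) (p : ℕ) :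
    Ev m w e (loop r a) v p v 0 (List.replicate (m r * c) x) := by
  have := ev_loop_const (m := m) (w := w) (e := e) (r := r) (a := a) (v := v) (by omega)
    (update_zero hv) c x h p
  rwa [hv, Nat.sub_zero] at this

/-- Loops skipping input, starting from any value of the register. -/
theorem ev_loop_skip {r : F} {a : LP F α} {v v' : F → ℕ} (hv : v r ≤ m r)
    (hv' : Function.update v r 0 = v') (n : ℕ)
    (h : ∀ i p, Ev m w e a (Function.update v r i) p (Function.update v r i) n []) (p : ℕ) :
    Ev m w e (loop r a) v p v' ((m r - v r) * n) [] := by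
  have := ev_loop_from (m := m) (w := w) (e := e) (r := r) (a := a) (fun _ => v)
    (fun i => (i - v r) * n) (fun _ => []) (v r) p hv v v' (Function.update_eq_self r v) hv'
    (fun i h1 _ => (h i _).congr rfl (by
      have : i + 1 - v r = (i - v r) + 1 := by omega
      rw [this, Nat.succ_mul]
      omega) rfl) (by simp) (fun i _ _ => Nat.mul_le_mul_right _ (by omega))
  refine this.congr rfl rfl ?_
  simp

/-- Loops skipping input, starting from `0`. -/
theorem ev_loop_skip0 {r : F} {a : LP F α} {v : F → ℕ} (hv : v r = 0) (n : ℕ)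
    (h : ∀ i p, Ev m w e a (Function.update v r i) p (Function.update v r i) n []) (p : ℕ) :
    Ev m w e (loop r a) v p v (m r * n) [] := by
  have := ev_loop_skip (m := m) (w := w) (e := e) (r := r) (a := a) (v := v) (by omega)
    (update_zero hv) n h p
  rwa [hv, Nat.sub_zero] at this

/-- Iterations. -/
theorem ev_iterate {a : LP F α} (V : ℕ → F → ℕ) (n : ℕ) (out : ℕ → List α) {p k : ℕ}
    (h : ∀ i < k, Ev m w e a (V i) (p + i * n) (V (i + 1)) n (out i)) (o : List α) :
    ((eval m w e a)^[k] ⟨V 0, p, o⟩) = ⟨V k, p + k * n, o ++ (List.range k).flatMap out⟩ := by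
  induction k with
  | zero => simp
  | succ k ih =>
    rw [Function.iterate_succ_apply', ih (fun i hi => h i (by omega)), h k (by omega)]
    apply PS.ext
    · rfl
    · show p + k * n + n = p + (k + 1) * n
      rw [Nat.succ_mul]
      omega
    · simp [List.range_succ]

/-- The general rule for `forReg`. -/
theorem ev_forReg {r : F} {a : LP F α} (V : ℕ → F → ℕ) (n : ℕ) (out : ℕ → List α) {p : ℕ}
    {v v' : F → ℕ} (hv : V 0 = v) (hv' : V (v r) = v')
    (h : ∀ i < v r, Ev m w e a (V i) (p + i * n) (V (i + 1)) n (out i)) :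
    Ev m w e (forReg r a) v p v' (v r * n) ((List.range (v r)).flatMap out) := by
  intro o
  subst hv
  subst hv'
  exact ev_iterate V n out h o

/-- The general rule for `forCo`. -/
theorem ev_forCo {r : F} {a : LP F α} (V : ℕ → F → ℕ) (n : ℕ) (out : ℕ → List α) {p : ℕ}
    {v v' : F → ℕ} (hv : V 0 = v) (hv' : V (m r - v r) = v')
    (h : ∀ i < m r - v r, Ev m w e a (V i) (p + i * n) (V (i + 1)) n (out i)) :
    Ev m w e (forCo r a) v p v' ((m r - v r) * n) ((List.range (m r - v r)).flatMap out) := by
  intro o
  subst hv
  subst hv'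
  exact ev_iterate V n out h o

theorem ev_forReg_const {r : F} {a : LP F α} {v : F → ℕ} (c : ℕ) (x : α)
    (h : ∀ p, Ev m w e a v p v 0 (List.replicate c x)) (p : ℕ) :
    Ev m w e (forReg r a) v p v 0 (List.replicate (v r * c) x) := by
  have := ev_forReg (m := m) (w := w) (e := e) (r := r) (a := a) (v := v) (v' := v) (p := p)
    (fun _ => v) 0 (fun _ => List.replicate c x) rfl rfl (fun i _ => h _)
  refine this.congr rfl (by simp) (flatMap_replicate_range c x _)

theorem ev_forCo_const {r : F} {a : LP F α} {v : F → ℕ} (c : ℕ) (x : α)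
    (h : ∀ p, Ev m w e a v p v 0 (List.replicate c x)) (p : ℕ) :
    Ev m w e (forCo r a) v p v 0 (List.replicate ((m r - v r) * c) x) := by
  have := ev_forCo (m := m) (w := w) (e := e) (r := r) (a := a) (v := v) (v' := v) (p := p)
    (fun _ => v) 0 (fun _ => List.replicate c x) rfl rfl (fun i _ => h _)
  refine this.congr rfl (by simp) (flatMap_replicate_range c x _)

theorem ev_forReg_skip {r : F} {a : LP F α} {v : F → ℕ} (n : ℕ)
    (h : ∀ p, Ev m w e a v p v n []) (p : ℕ) :
    Ev m w e (forReg r a) v p v (v r * n) [] := by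
  have := ev_forReg (m := m) (w := w) (e := e) (r := r) (a := a) (v := v) (v' := v) (p := p)
    (fun _ => v) n (fun _ => []) rfl rfl (fun i _ => h _)
  refine this.congr rfl rfl (by simp)

theorem ev_forCo_skip {r : F} {a : LP F α} {v : F → ℕ} (n : ℕ)
    (h : ∀ p, Ev m w e a v p v n []) (p : ℕ) :
    Ev m w e (forCo r a) v p v ((m r - v r) * n) [] := by
  have := ev_forCo (m := m) (w := w) (e := e) (r := r) (a := a) (v := v) (v' := v) (p := p)
    (fun _ => v) n (fun _ => []) rfl rfl (fun i _ => h _)
  refine this.congr rfl rfl (by simp)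

/-- Incrementing a register `v q` times by `c`. -/
theorem ev_rep_inc (r : F) (hm : 0 < m r) (c : ℕ) (v : F → ℕ) (hv : v r < m r) (p : ℕ) :
    Ev m w e (rep c (inc r)) v p (Function.update v r ((v r + c) % m r)) 0 [] := by
  induction c generalizing v with
  | zero =>
    refine (ev_nop v p).congr ?_ rfl rfl
    rw [Nat.add_zero, Nat.mod_eq_of_lt hv, Function.update_eq_self]
  | succ c ih =>
    have h1 := ev_inc (m := m) (w := w) (e := e) r v p
    have h2 := ih (Function.update v r ((v r + 1) % m r))
      (by rw [Function.update_self]; exact Nat.mod_lt _ hm)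
    refine (h1.seq (p := p) h2).congr ?_ rfl (by simp)
    rw [Function.update_idem, Function.update_self]
    congr 1
    rw [Nat.mod_add_mod]
    congr 1
    omega

theorem ev_forReg_inc {q r : F} (hm : 0 < m r) (c : ℕ) (v : F → ℕ)
    (hv : v r < m r) (p : ℕ) :
    Ev m w e (forReg q (rep c (inc r))) v p (Function.update v r ((v r + v q * c) % m r)) 0 [] := by
  have := ev_forReg (m := m) (w := w) (e := e) (r := q) (a := rep c (inc r)) (v := v) (p := p)
    (fun i => Function.update v r ((v r + i * c) % m r)) 0 (fun _ => []) (by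
      simp only [Nat.zero_mul, Nat.add_zero]
      rw [Nat.mod_eq_of_lt hv, Function.update_eq_self]) rfl (fun i _ => by
      refine (ev_rep_inc r hm c _ (by rw [Function.update_self]; exact Nat.mod_lt _ hm) _).congr
        ?_ rfl rfl
      rw [Function.update_idem, Function.update_self, Nat.mod_add_mod, Nat.succ_mul,
        Nat.add_assoc])
  exact this.congr rfl (by simp) (by simp)

theorem ev_forCo_inc {q r : F} (hm : 0 < m r) (c : ℕ) (v : F → ℕ)
    (hv : v r < m r) (p : ℕ) :
    Ev m w e (forCo q (rep c (inc r))) v p
      (Function.update v r ((v r + (m q - v q) * c) % m r)) 0 [] := by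
  have := ev_forCo (m := m) (w := w) (e := e) (r := q) (a := rep c (inc r)) (v := v) (p := p)
    (fun i => Function.update v r ((v r + i * c) % m r)) 0 (fun _ => []) (by
      simp only [Nat.zero_mul, Nat.add_zero]
      rw [Nat.mod_eq_of_lt hv, Function.update_eq_self]) rfl (fun i _ => by
      refine (ev_rep_inc r hm c _ (by rw [Function.update_self]; exact Nat.mod_lt _ hm) _).congr
        ?_ rfl rfl
      rw [Function.update_idem, Function.update_self, Nat.mod_add_mod, Nat.succ_mul,
        Nat.add_assoc])
  exact this.congr rfl (by simp) (by simp)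

/-- The segment of length `n` of the input at the position `p`. -/
def seg (w : List α) (e : α) (p n : ℕ) : List α := (List.range n).map fun i => w.getD (p + i) e

theorem seg_eq {w : List α} (e : α) {p n : ℕ} (h : p + n ≤ w.length) :
    seg w e p n = (w.drop p).take n := by
  apply List.ext_getElem
  · simp [seg]
    omega
  · intro i h1 h2
    simp only [seg, List.length_map, List.length_range] at h1
    have h3 : p + i < w.length := by omega
    simp [seg, List.getD_eq_getElem?_getD, List.getElem?_eq_getElem h3]

theorem seg_add (w : List α) (e : α) (p n k : ℕ) :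
    seg w e p (n + k) = seg w e p n ++ seg w e (p + n) k := by
  unfold seg
  rw [List.range_add, List.map_append, List.map_map]
  congr 1
  apply List.map_congr_left
  intro i _
  simp [Nat.add_assoc]

theorem seg_one (w : List α) (e : α) (p : ℕ) : seg w e p 1 = [w.getD p e] := by simp [seg]

theorem flatMap_seg_range' (w : List α) (e : α) (p k n c : ℕ) :
    ((List.range' k n).flatMap fun i => seg w e (p + (i - k) * c) c) = seg w e p (n * c) := by
  induction n with
  | zero => simp [seg]
  | succ n ih =>
    have h1 : (n + 1) * c = n * c + c := by ring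
    rw [List.range'_concat, List.flatMap_append, ih, h1, seg_add]
    simp

/-- Loops copying input, starting from any value of the register. -/
theorem ev_loop_copy {r : F} {a : LP F α} {v v' : F → ℕ} (hv : v r ≤ m r)
    (hv' : Function.update v r 0 = v') (n : ℕ)
    (h : ∀ i p, Ev m w e a (Function.update v r i) p (Function.update v r i) n (seg w e p n))
    (p : ℕ) : Ev m w e (loop r a) v p v' ((m r - v r) * n) (seg w e p ((m r - v r) * n)) := by
  have := ev_loop_from (m := m) (w := w) (e := e) (r := r) (a := a) (fun _ => v)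
    (fun i => (i - v r) * n) (fun i => seg w e (p + (i - v r) * n) n) (v r) p hv v v'
    (Function.update_eq_self r v) hv'
    (fun i h1 _ => (h i _).congr rfl (by
      have : i + 1 - v r = (i - v r) + 1 := by omega
      rw [this, Nat.succ_mul]
      omega) rfl) (by simp) (fun i _ _ => Nat.mul_le_mul_right _ (by omega))
  rw [flatMap_seg_range'] at this
  exact this

/-- Loops copying input, starting from `0`. -/
theorem ev_loop_copy0 {r : F} {a : LP F α} {v : F → ℕ} (hv : v r = 0) (n : ℕ)
    (h : ∀ i p, Ev m w e a (Function.update v r i) p (Function.update v r i) n (seg w e p n))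
    (p : ℕ) : Ev m w e (loop r a) v p v (m r * n) (seg w e p (m r * n)) := by
  have := ev_loop_copy (m := m) (w := w) (e := e) (r := r) (a := a) (v := v) (by omega)
    (update_zero hv) n h p
  rwa [hv, Nat.sub_zero] at this

theorem ev_copy' (v : F → ℕ) (p : ℕ) : Ev m w e copy v p v 1 (seg w e p 1) := by
  rw [seg_one]
  exact ev_copy v p

theorem ev_rep_copy {a : LP F α} {v : F → ℕ} {n : ℕ}
    (h : ∀ p, Ev m w e a v p v n (seg w e p n)) (k p : ℕ) :
    Ev m w e (rep k a) v p v (k * n) (seg w e p (k * n)) := by
  induction k generalizing p with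
  | zero => exact (ev_nop v p).congr rfl (by simp) (by simp [seg])
  | succ k ih =>
    refine ((h p).seq (ih (p + n))).congr rfl (by ring) ?_
    have : (k + 1) * n = n + k * n := by ring
    rw [this, seg_add]

theorem ev_rep_skip {a : LP F α} {v : F → ℕ} {n : ℕ}
    (h : ∀ p, Ev m w e a v p v n []) (k p : ℕ) :
    Ev m w e (rep k a) v p v (k * n) [] := (ev_rep h k p).congr rfl rfl (by simp)

theorem ev_forReg_copy {r : F} {a : LP F α} {v : F → ℕ} (n : ℕ)
    (h : ∀ p, Ev m w e a v p v n (seg w e p n)) (p : ℕ) :
    Ev m w e (forReg r a) v p v (v r * n) (seg w e p (v r * n)) := by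
  have := ev_forReg (m := m) (w := w) (e := e) (r := r) (a := a) (v := v) (v' := v) (p := p)
    (fun _ => v) n (fun i => seg w e (p + i * n) n) rfl rfl (fun i _ => h _)
  refine this.congr rfl rfl ?_
  have h2 := flatMap_seg_range' w e p 0 (v r) n
  simp only [Nat.sub_zero] at h2
  rw [List.range_eq_range', h2]

theorem ev_forCo_copy {r : F} {a : LP F α} {v : F → ℕ} (n : ℕ)
    (h : ∀ p, Ev m w e a v p v n (seg w e p n)) (p : ℕ) :
    Ev m w e (forCo r a) v p v ((m r - v r) * n) (seg w e p ((m r - v r) * n)) := by
  have := ev_forCo (m := m) (w := w) (e := e) (r := r) (a := a) (v := v) (v' := v) (p := p)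
    (fun _ => v) n (fun i => seg w e (p + i * n) n) rfl rfl (fun i _ => h _)
  refine this.congr rfl rfl ?_
  have h2 := flatMap_seg_range' w e p 0 (m r - v r) n
  simp only [Nat.sub_zero] at h2
  rw [List.range_eq_range', h2]

theorem uses_rep (a : LP F α) (n : ℕ) : uses (rep n a) = if n = 0 then ∅ else uses a := by
  induction n with
  | zero => rfl
  | succ n ih =>
    rw [rep, uses, ih]
    by_cases h : n = 0
    · simp [h]
    · simp [h]

theorem writes_rep (a : LP F α) (n : ℕ) : writes (rep n a) = if n = 0 then ∅ else writes a := by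
  induction n with
  | zero => rfl
  | succ n ih =>
    rw [rep, writes, ih]
    by_cases h : n = 0
    · simp [h]
    · simp [h]

theorem marks_rep (a : LP F α) (n : ℕ) : marks (rep n a) = if n = 0 then ∅ else marks a := by
  induction n with
  | zero => rfl
  | succ n ih =>
    rw [rep, marks, ih]
    by_cases h : n = 0
    · simp [h]
    · simp [h]

theorem WF_rep (a : LP F α) (n : ℕ) : WF (rep n a) ↔ (n = 0 ∨ WF a) := by
  induction n with
  | zero => simp [rep, WF]
  | succ n ih =>
    rw [rep, WF, ih]
    by_cases h : n = 0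
    · simp [h]
    · simp [h]

theorem uses_rep_emit (a : α) (n : ℕ) : uses (rep n (emit a) : LP F α) = ∅ := by
  rw [uses_rep]
  simp [uses]

theorem writes_rep_emit (a : α) (n : ℕ) : writes (rep n (emit a) : LP F α) = ∅ := by
  rw [writes_rep]
  simp [writes]

theorem marks_rep_emit (a : α) (n : ℕ) : marks (rep n (emit a) : LP F α) = ∅ := by
  rw [marks_rep]
  simp [marks]

theorem WF_rep_emit (a : α) (n : ℕ) : WF (rep n (emit a) : LP F α) ↔ True := by
  rw [WF_rep]
  simp [WF]

omit [DecidableEq F] in
/-- Cost bounds. -/
theorem bd_rep (a : LP F α) (n : ℕ) : bd m (rep n a) = n * bd m a + 1 := by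
  induction n with
  | zero => simp [rep, bd]
  | succ n ih =>
    rw [rep, bd, ih]
    ring

omit [DecidableEq F] in
theorem bd_loop_le {r : F} {a : LP F α} {c q : ℕ} (hq : 1 ≤ q) (hm : 1 ≤ m r)
    (h : bd m a ≤ c * q) : bd m (loop r a) ≤ (c + 4) * (m r * q) := by
  rw [bd]
  have h1 : 1 ≤ m r * q := Nat.mul_pos hm hq
  have h2 : m r * (bd m a + 2) ≤ m r * (c * q + 2) := Nat.mul_le_mul_left _ (by omega)
  have h3 : m r ≤ m r * q := Nat.le_mul_of_pos_right _ hq
  have h4 : m r * (c * q + 2) = c * (m r * q) + 2 * m r := by ring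
  have h5 : (c + 4) * (m r * q) = c * (m r * q) + 4 * (m r * q) := by ring
  omega

omit [DecidableEq F] in
theorem bd_forReg_le {r : F} {a : LP F α} {c q : ℕ} (hq : 1 ≤ q) (hm : 1 ≤ m r)
    (h : bd m a ≤ c * q) : bd m (forReg r a) ≤ (c + 6) * (m r * q) := by
  rw [bd]
  have h1 : 1 ≤ m r * q := Nat.mul_pos hm hq
  have h2 : m r * (bd m a + 2) ≤ m r * (c * q + 2) := Nat.mul_le_mul_left _ (by omega)
  have h3 : m r ≤ m r * q := Nat.le_mul_of_pos_right _ hq
  have h4 : m r * (c * q + 2) = c * (m r * q) + 2 * m r := by ring
  have h5 : (c + 6) * (m r * q) = c * (m r * q) + 6 * (m r * q) := by ring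
  omega

omit [DecidableEq F] in
theorem bd_forCo_le {r : F} {a : LP F α} {c q : ℕ} (hq : 1 ≤ q) (hm : 1 ≤ m r)
    (h : bd m a ≤ c * q) : bd m (forCo r a) ≤ (c + 9) * (m r * q) := by
  rw [bd]
  have h1 : 1 ≤ m r * q := Nat.mul_pos hm hq
  have h2 : m r * (bd m a + 4) ≤ m r * (c * q + 4) := Nat.mul_le_mul_left _ (by omega)
  have h3 : m r ≤ m r * q := Nat.le_mul_of_pos_right _ hq
  have h4 : m r * (c * q + 4) = c * (m r * q) + 4 * m r := by ring
  have h5 : (c + 9) * (m r * q) = c * (m r * q) + 9 * (m r * q) := by ring
  omega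

attribute [irreducible] rep

end LP

end Vale.Agent.P338.R2.H806
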