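import Vale.Agent.P338.R2.H806.Pass
import Vale.Agent.P338.R2.H525.Lists

/-!
The pack pass.
-/

namespace Vale.Agent.P338.R2.H806

open Vale.Agent.P338.R2.H898

variable {M F α : Type} [DecidableEq F]

namespace LP

variable {m : F → ℕ} {w : List α} {e : α}

/-- A slot of zeros. -/
def zslot (rL : F) (z : α) : LP F α := loop rL (rep 64 (emit z))

theorem ev_zslot (rL : F) (z : α) {v : F → ℕ} (hv : v rL = 0) (p : ℕ) :
    Ev m w e (zslot rL z) v p v 0 (List.replicate (m rL * 64) z) :=
  ev_loop_const0 hv 64 z (fun _ p => ev_rep_emit z _ 64 p) p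

/-- `c * L + (L - 1)` zeros. -/
def zpre (rL : F) (c : ℕ) (z : α) : LP F α :=
  seq (loop rL (rep c (emit z))) (seq (inc rL) (loop rL (emit z)))

theorem ev_zpre (rL : F) (c : ℕ) (z : α) {v : F → ℕ} (hv : v rL = 0) (hL : 2 ≤ m rL) (p : ℕ) :
    Ev m w e (zpre rL c z) v p v 0 (List.replicate (m rL * c + (m rL - 1)) z) := by
  have h1 := ev_loop_const0 (m := m) (w := w) (e := e) hv c z (fun _ p => ev_rep_emit z _ c p) p
  have h2 := ev_inc (m := m) (w := w) (e := e) rL v (p + 0)
  have e1 : (v rL + 1) % m rL = 1 := by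
    rw [hv]
    exact Nat.mod_eq_of_lt (by omega)
  rw [e1] at h2
  have h3 := ev_loop_const (m := m) (w := w) (e := e) (r := rL) (a := emit z)
    (v := Function.update v rL 1) (v' := v) (by rw [Function.update_self]; omega) (by
      rw [Function.update_idem]
      exact update_zero hv) 1 z (fun _ p => ev_emit z _ p) (p + 0 + 0)
  refine (h1.seq (h2.seq h3)).congr rfl rfl ?_
  rw [Function.update_self, List.nil_append, List.replicate_append_replicate, Nat.mul_one]

/-- A word, packed. -/
def packWord (rL : F) (z o : α) : LP F α := seq (zpre rL 62 z) (seq (loop rL copy) (emit o))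

theorem ev_packWord (rL : F) (z o : α) {v : F → ℕ} (hv : v rL = 0) (hL : 2 ≤ m rL) (p : ℕ) :
    Ev m w e (packWord rL z o) v p v (m rL)
      (List.replicate (63 * m rL - 1) z ++ seg w e p (m rL) ++ [o]) := by
  have h1 := ev_zpre (m := m) (w := w) (e := e) rL 62 z hv hL p
  have h2 := ev_loop_copy0 (m := m) (w := w) (e := e) (a := copy) hv 1 (fun _ p => ev_copy' _ p)
    (p + 0)
  have h3 := ev_emit (m := m) (w := w) (e := e) o v (p + 0 + m rL * 1)
  refine (h1.seq (h2.seq h3)).congr rfl (by simp) ?_
  have h4 : m rL * 62 + (m rL - 1) = 63 * m rL - 1 := by omega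
  rw [h4, Nat.mul_one, Nat.add_zero, List.append_assoc]

/-- The program of the pack pass. -/
def packLP (rK rX rG rY rL : F) (z o : α) : LP F α :=
  loop rK (seq
    (loop rX (seq (loop rG (seq (loop rY (packWord rL z o)) (loop rY (zslot rL z))))
      (zslot rL z)))
    (loop rX (loop rG (loop rY (rep 4 (zslot rL z))))))

theorem ev_packLP {rK rX rG rY rL : F} (hnd : [rK, rX, rG, rY, rL].Nodup) (z o : α) {v : F → ℕ}
    (hK : v rK = 0) (hX : v rX = 0) (hG : v rG = 0) (hY : v rY = 0) (hL : v rL = 0)
    (hL2 : 2 ≤ m rL) (p : ℕ) :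
    Ev m w e (packLP rK rX rG rY rL z o) v p v (m rK * (m rX * (m rG * (m rY * m rL))))
      ((List.range (m rK)).flatMap fun k =>
        ((List.range (m rX)).flatMap fun x =>
          ((List.range (m rG)).flatMap fun g =>
            ((List.range (m rY)).flatMap fun y =>
              List.replicate (63 * m rL - 1) z ++
                seg w e (p + k * (m rX * (m rG * (m rY * m rL))) + x * (m rG * (m rY * m rL)) +
                  g * (m rY * m rL) + y * m rL) (m rL) ++ [o]) ++
            List.replicate (m rY * (m rL * 64)) z) ++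
          List.replicate (m rL * 64) z) ++
        List.replicate (m rX * (m rG * (m rY * (4 * (m rL * 64))))) z) := by
  simp only [List.nodup_cons, List.mem_cons, List.not_mem_nil, or_false, not_or] at hnd
  obtain ⟨⟨hKX, hKG, hKY, hKL⟩, ⟨hXG, hXY, hXL⟩, ⟨hGY, hGL⟩, hYL, _⟩ := hnd
  refine ev_loop_same hK _ _ fun k _ => ?_
  set v1 := Function.update v rK k with hv1
  have hX1 : v1 rX = 0 := by rw [hv1, Function.update_of_ne (Ne.symm hKX), hX]
  have hG1 : v1 rG = 0 := by rw [hv1, Function.update_of_ne (Ne.symm hKG), hG]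
  have hY1 : v1 rY = 0 := by rw [hv1, Function.update_of_ne (Ne.symm hKY), hY]
  have hL1 : v1 rL = 0 := by rw [hv1, Function.update_of_ne (Ne.symm hKL), hL]
  set p1 := p + k * (m rX * (m rG * (m rY * m rL))) with hp1
  have hA : Ev m w e (loop rX (seq (loop rG (seq (loop rY (packWord rL z o))
      (loop rY (zslot rL z)))) (zslot rL z))) v1 p1 v1 (m rX * (m rG * (m rY * m rL)))
      ((List.range (m rX)).flatMap fun x =>
          ((List.range (m rG)).flatMap fun g =>
            ((List.range (m rY)).flatMap fun y =>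
              List.replicate (63 * m rL - 1) z ++
                seg w e (p1 + x * (m rG * (m rY * m rL)) +
                  g * (m rY * m rL) + y * m rL) (m rL) ++ [o]) ++
            List.replicate (m rY * (m rL * 64)) z) ++
          List.replicate (m rL * 64) z) := by
    refine ev_loop_same hX1 _ _ fun x _ => ?_
    set v2 := Function.update v1 rX x with hv2
    have hG2 : v2 rG = 0 := by rw [hv2, Function.update_of_ne (Ne.symm hXG), hG1]
    have hY2 : v2 rY = 0 := by rw [hv2, Function.update_of_ne (Ne.symm hXY), hY1]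
    have hL2' : v2 rL = 0 := by rw [hv2, Function.update_of_ne (Ne.symm hXL), hL1]
    set p2 := p1 + x * (m rG * (m rY * m rL)) with hp2
    refine (Ev.seq ?_ (ev_zslot rL z hL2' _)).congr rfl (Nat.add_zero _) rfl
    refine ev_loop_same hG2 _ _ fun g _ => ?_
    set v3 := Function.update v2 rG g with hv3
    have hY3 : v3 rY = 0 := by rw [hv3, Function.update_of_ne (Ne.symm hGY), hY2]
    have hL3 : v3 rL = 0 := by rw [hv3, Function.update_of_ne (Ne.symm hGL), hL2']
    have hL4 : ∀ y, Function.update v3 rY y rL = 0 := fun y => by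
      rw [Function.update_of_ne (Ne.symm hYL), hL3]
    refine (Ev.seq (ev_loop_same hY3 (m rL) _ fun y _ => ev_packWord rL z o (hL4 y) hL2 _)
      (ev_loop_const0 hY3 (m rL * 64) z (fun y p => ev_zslot rL z (hL4 y) p) _)).congr rfl
        (Nat.add_zero _) rfl
  have hB : ∀ p, Ev m w e (loop rX (loop rG (loop rY (rep 4 (zslot rL z))))) v1 p v1 0
      (List.replicate (m rX * (m rG * (m rY * (4 * (m rL * 64))))) z) := by
    intro p
    refine ev_loop_const0 hX1 _ z (fun x p => ?_) p
    set v2 := Function.update v1 rX x with hv2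
    have hG2 : v2 rG = 0 := by rw [hv2, Function.update_of_ne (Ne.symm hXG), hG1]
    have hY2 : v2 rY = 0 := by rw [hv2, Function.update_of_ne (Ne.symm hXY), hY1]
    have hL2' : v2 rL = 0 := by rw [hv2, Function.update_of_ne (Ne.symm hXL), hL1]
    refine ev_loop_const0 hG2 _ z (fun g p => ?_) p
    set v3 := Function.update v2 rG g with hv3
    have hY3 : v3 rY = 0 := by rw [hv3, Function.update_of_ne (Ne.symm hGY), hY2]
    have hL3 : v3 rL = 0 := by rw [hv3, Function.update_of_ne (Ne.symm hGL), hL2']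
    refine ev_loop_const0 hY3 _ z (fun y p => ?_) p
    have hL4 : Function.update v3 rY y rL = 0 := by
      rw [Function.update_of_ne (Ne.symm hYL), hL3]
    refine (ev_rep (fun p => ev_zslot rL z hL4 p) 4 p).congr rfl (by simp) ?_
    generalize m rL * 64 = t
    have h4 : (4 : ℕ) * t = t + (t + (t + t)) := by ring
    simp [List.replicate_succ, h4, List.replicate_append_replicate]
  exact (hA.seq (hB _)).congr rfl (Nat.add_zero _) rfl

omit [DecidableEq F] in
theorem bd_packLP (rK rX rG rY rL : F) (z o : α) (hK : 1 ≤ m rK) (hX : 1 ≤ m rX) (hG : 1 ≤ m rG)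
    (hY : 1 ≤ m rY) (hL : 1 ≤ m rL) :
    bd m (packLP rK rX rG rY rL z o) ≤ 2000 * (m rK * (m rX * (m rG * (m rY * m rL)))) := by
  have q1 : 1 ≤ m rY * m rL := Nat.mul_pos hY hL
  have q2 : 1 ≤ m rG * (m rY * m rL) := Nat.mul_pos hG q1
  have q3 : 1 ≤ m rX * (m rG * (m rY * m rL)) := Nat.mul_pos hX q2
  have a1 : bd m (zslot rL z) ≤ 133 * m rL := by
    simp only [zslot, bd, bd_rep]
    omega
  have a2 : bd m (packWord rL z o) ≤ 147 * m rL := by
    simp only [packWord, zpre, bd, bd_rep]
    omega
  have a3 : bd m (loop rY (packWord rL z o)) ≤ 151 * (m rY * m rL) := bd_loop_le hL hY a2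
  have a4 : bd m (loop rY (zslot rL z)) ≤ 137 * (m rY * m rL) := bd_loop_le hL hY a1
  have a5 : bd m (loop rG (seq (loop rY (packWord rL z o)) (loop rY (zslot rL z)))) ≤
      292 * (m rG * (m rY * m rL)) := bd_loop_le q1 hG (by rw [bd]; omega)
  have a6 : m rL ≤ m rG * (m rY * m rL) :=
    (Nat.le_mul_of_pos_left _ hY).trans (Nat.le_mul_of_pos_left _ hG)
  have a7 : bd m (loop rX (seq (loop rG (seq (loop rY (packWord rL z o)) (loop rY (zslot rL z))))
      (zslot rL z))) ≤ 429 * (m rX * (m rG * (m rY * m rL))) :=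
    bd_loop_le q2 hX (by rw [bd]; omega)
  have a8 : bd m (rep 4 (zslot rL z)) ≤ 533 * m rL := by
    rw [bd_rep]
    omega
  have a9 : bd m (loop rX (loop rG (loop rY (rep 4 (zslot rL z))))) ≤
      545 * (m rX * (m rG * (m rY * m rL))) :=
    bd_loop_le q2 hX (bd_loop_le q1 hG (bd_loop_le hL hY a8))
  refine (bd_loop_le (c := 974) q3 hK (by rw [bd]; omega)).trans ?_
  exact Nat.mul_le_mul_right _ (by norm_num)

theorem seg_flatMap (f : ℕ → List α) (c n i q k : ℕ) (hi : i < n)
    (hf : ∀ j < n, (f j).length = c) (h : q + k ≤ c) (e : α) :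
    seg ((List.range n).flatMap f) e (i * c + q) k = seg (f i) e q k := by
  unfold seg
  apply List.map_congr_left
  intro j hj
  rw [List.mem_range] at hj
  rw [Nat.add_assoc, H525.getD_flatMap_range n c f e hf i (q + j) hi (by omega)]

theorem seg_self (x : List α) (e : α) (n : ℕ) (hn : x.length = n) : seg x e 0 n = x := by
  rw [seg_eq e (by omega)]
  simp [← hn]

open H525 in
theorem seg_inputBits (enc : Bool → α) (e : α) (D : Dim) (V : ℕ → ℕ → ℕ → ℕ → List Bool)
    (hV : ∀ k < D.K, ∀ x < D.P, ∀ g < D.G, ∀ y < D.P, (V k x g y).length = D.L)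
    (k x g y : ℕ) (hk : k < D.K) (hx : x < D.P) (hg : g < D.G) (hy : y < D.P) :
    seg ((inputBits D V).map enc) e (k * (D.P * (D.G * (D.P * D.L))) + x * (D.G * (D.P * D.L)) +
      g * (D.P * D.L) + y * D.L) D.L = (V k x g y).map enc := by
  have l1 : ∀ k < D.K, ∀ x < D.P, ∀ g < D.G, (((List.range D.P).flatMap fun y =>
      V k x g y).map enc).length = D.P * D.L := by
    intro k hk x hx g hg
    rw [List.length_map]
    exact length_flatMap_const _ _ _ (fun y hy => hV k hk x hx g hg y hy)
  have l2 : ∀ k < D.K, ∀ x < D.P, (((List.range D.G).flatMap fun g => (List.range D.P).flatMap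
      fun y => V k x g y).map enc).length = D.G * (D.P * D.L) := by
    intro k hk x hx
    rw [List.length_map]
    refine length_flatMap_const _ _ _ (fun g hg => ?_)
    have := l1 k hk x hx g hg
    rwa [List.length_map] at this
  have l3 : ∀ k < D.K, (((List.range D.P).flatMap fun x => (List.range D.G).flatMap fun g =>
      (List.range D.P).flatMap fun y => V k x g y).map enc).length =
      D.P * (D.G * (D.P * D.L)) := by
    intro k hk
    rw [List.length_map]
    refine length_flatMap_const _ _ _ (fun x hx => ?_)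
    have := l2 k hk x hx
    rwa [List.length_map] at this
  have b1 : y * D.L + D.L ≤ D.P * D.L := by
    have := Nat.mul_le_mul_right D.L (Nat.succ_le_of_lt hy)
    rwa [Nat.succ_mul] at this
  have b2 : g * (D.P * D.L) + D.P * D.L ≤ D.G * (D.P * D.L) := by
    have := Nat.mul_le_mul_right (D.P * D.L) (Nat.succ_le_of_lt hg)
    rwa [Nat.succ_mul] at this
  have b3 : x * (D.G * (D.P * D.L)) + D.G * (D.P * D.L) ≤ D.P * (D.G * (D.P * D.L)) := by
    have := Nat.mul_le_mul_right (D.G * (D.P * D.L)) (Nat.succ_le_of_lt hx)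
    rwa [Nat.succ_mul] at this
  unfold inputBits
  simp only [List.map_flatMap]
  simp only [List.map_flatMap] at l1 l2 l3
  rw [Nat.add_assoc, Nat.add_assoc]
  rw [seg_flatMap _ _ _ k _ _ hk l3 (by omega)]
  rw [seg_flatMap _ _ _ x _ _ hx (fun x hx => l2 k hk x hx) (by omega)]
  rw [seg_flatMap _ _ _ g _ _ hg (fun g hg => l1 k hk x hx g hg) (by omega)]
  have := seg_flatMap (fun y => (V k x g y).map enc) D.L D.P y 0 D.L hy
    (fun y hy => by rw [List.length_map]; exact hV k hk x hx g hg y hy) (by omega) e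
  rw [Nat.add_zero] at this
  rw [this]
  exact seg_self _ _ _ (by rw [List.length_map]; exact hV k hk x hx g hg y hy)

theorem flatMap_range_congr {β : Type} {f g : ℕ → List β} {n : ℕ} (h : ∀ i < n, f i = g i) :
    (List.range n).flatMap f = (List.range n).flatMap g := by
  unfold List.flatMap
  congr 1
  apply List.map_congr_left
  intro i hi
  exact h i (List.mem_range.mp hi)

open H525 in
theorem map_zeros (enc : Bool → α) (n : ℕ) : (zeros n).map enc = List.replicate n (enc false) := by
  simp [zeros]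

theorem uses_packLP (rK rX rG rY rL : F) (z o : α) :
    (packLP rK rX rG rY rL z o).uses ⊆ {rK, rX, rG, rY, rL} := by
  intro f hf
  simp only [packLP, packWord, zpre, zslot, uses_rep, uses, Finset.mem_insert,
    Finset.mem_union, Finset.mem_singleton, Finset.notMem_empty, or_false, OfNat.ofNat_ne_zero,
    if_false] at hf ⊢
  tauto

theorem marks_packLP (rK rX rG rY rL : F) (z o : α) :
    (packLP rK rX rG rY rL z o).marks = ∅ := by
  simp [packLP, packWord, zpre, zslot, marks_rep, marks]

theorem WF_packLP {rK rX rG rY rL : F} (hnd : [rK, rX, rG, rY, rL].Nodup) (z o : α) :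
    (packLP rK rX rG rY rL z o).WF := by
  simp only [List.nodup_cons, List.mem_cons, List.not_mem_nil, or_false, not_or] at hnd
  simp only [packLP, packWord, zpre, zslot, WF_rep, writes_rep, WF, writes, Finset.mem_insert,
    Finset.mem_union, Finset.mem_singleton, Finset.notMem_empty, or_false, OfNat.ofNat_ne_zero,
    if_false]
  tauto

open H525 in
/-- The pack pass against its specification. -/
theorem run_pack [DecidableEq α] {d : α} (D : Dim) (hK : 0 < D.K) (hG : 0 < D.G) (hh : 1 ≤ D.h)
    (V : ℕ → ℕ → ℕ → ℕ → List Bool)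
    (hV : ∀ k < D.K, ∀ x < D.P, ∀ g < D.G, ∀ y < D.P, (V k x g y).length = D.L)
    (enc : Bool → α) (one mk e : α) (hmk : one ≠ mk) (I O rK rX rG rY rL : F)
    (hnd : [rK, rX, rG, rY, rL, I, O].Nodup) (mem : M) (z : F → Zip α)
    (hzI : z I = ⟨[], (inputBits D V).map enc⟩) (hzO : z O = ⟨[], []⟩)
    (hrK : ∃ c, z rK = ⟨[], c⟩ ∧ c.length = D.K) (hrX : ∃ c, z rX = ⟨[], c⟩ ∧ c.length = D.P)
    (hrG : ∃ c, z rG = ⟨[], c⟩ ∧ c.length = D.G) (hrY : ∃ c, z rY = ⟨[], c⟩ ∧ c.length = D.P)
    (hrL : ∃ c, z rL = ⟨[], c⟩ ∧ c.length = D.L) :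
    Prog.Run d (passP I O one mk e (packLP rK rX rG rY rL (enc false) (enc true))) ⟨mem, z⟩
      (2000 * (D.K * (D.P * (D.G * (D.P * D.L)))) + 2)
      ⟨mem, Function.update z O ⟨[], (packBits D V).map enc⟩⟩ := by
  have hP : 1 ≤ D.P := Nat.one_le_two_pow
  have hL2 : 2 ≤ D.L := by
    unfold Dim.L
    calc 2 = 2 ^ 1 := rfl
      _ ≤ 2 ^ D.h := Nat.pow_le_pow_right (by norm_num) hh
  set m : F → ℕ := fun f => (z f).r.length with hm
  have mK : m rK = D.K := by obtain ⟨c, h1, h2⟩ := hrK; simp [hm, h1, h2]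
  have mX : m rX = D.P := by obtain ⟨c, h1, h2⟩ := hrX; simp [hm, h1, h2]
  have mG : m rG = D.G := by obtain ⟨c, h1, h2⟩ := hrG; simp [hm, h1, h2]
  have mY : m rY = D.P := by obtain ⟨c, h1, h2⟩ := hrY; simp [hm, h1, h2]
  have mL : m rL = D.L := by obtain ⟨c, h1, h2⟩ := hrL; simp [hm, h1, h2]
  simp only [List.nodup_cons, List.mem_cons, List.not_mem_nil, or_false, not_or] at hnd
  have hnd5 : [rK, rX, rG, rY, rL].Nodup := by
    simp only [List.nodup_cons, List.mem_cons, List.not_mem_nil, or_false, not_or]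
    tauto
  have hndI : I ∉ ({rK, rX, rG, rY, rL} : Finset F) := by
    simp only [Finset.mem_insert, Finset.mem_singleton, not_or]
    tauto
  have hndO : O ∉ ({rK, rX, rG, rY, rL} : Finset F) := by
    simp only [Finset.mem_insert, Finset.mem_singleton, not_or]
    tauto
  have hIO : O ≠ I := by tauto
  have hall : ∀ r ∈ ({rK, rX, rG, rY, rL} : Finset F), (∃ c, z r = ⟨[], c⟩) ∧ 0 < m r := by
    intro r hr
    simp only [Finset.mem_insert, Finset.mem_singleton] at hr
    obtain ⟨c1, h1, _⟩ := hrK
    obtain ⟨c2, h2, _⟩ := hrX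
    obtain ⟨c3, h3, _⟩ := hrG
    obtain ⟨c4, h4, _⟩ := hrY
    obtain ⟨c5, h5, _⟩ := hrL
    rcases hr with rfl | rfl | rfl | rfl | rfl
    exacts [⟨⟨c1, h1⟩, by omega⟩, ⟨⟨c2, h2⟩, by omega⟩, ⟨⟨c3, h3⟩, by omega⟩,
      ⟨⟨c4, h4⟩, by omega⟩, ⟨⟨c5, h5⟩, by omega⟩]
  have huses := uses_packLP rK rX rG rY rL (enc false) (enc true)
  have hmarks := marks_packLP rK rX rG rY rL (enc false) (enc true)
  have hwf := WF_packLP hnd5 (enc false) (enc true)
  have hruler : ∀ r ∈ (packLP rK rX rG rY rL (enc false) (enc true)).uses,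
      ∃ c, z r = ⟨[], c⟩ ∧ c.length = m r ∧
      (r ∈ (packLP rK rX rG rY rL (enc false) (enc true)).marks →
        c = List.replicate (m r) one) := by
    intro r hr
    obtain ⟨c, hc⟩ := (hall r (huses hr)).1
    refine ⟨c, hc, by simp [hm, hc], fun h => ?_⟩
    rw [hmarks] at h
    simp at h
  have hpos : ∀ r ∈ (packLP rK rX rG rY rL (enc false) (enc true)).uses, 0 < m r :=
    fun r hr => (hall r (huses hr)).2
  have hev := ev_packLP (m := m) (w := (inputBits D V).map enc) (e := e) hnd5 (enc false)
    (enc true) (v := fun _ => 0) rfl rfl rfl rfl rfl (by omega) 0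
  have hrun := run_pass (d := d) _ hwf I O hIO (fun h => hndI (huses h)) (fun h => hndO (huses h))
    one mk e hmk mem z _ m hzI hzO hruler hpos (fun _ _ => rfl) hev
  have hbd := bd_packLP (m := m) rK rX rG rY rL (enc false) (enc true) (by omega) (by omega)
    (by omega) (by omega) (by omega)
  rw [mK, mX, mG, mY, mL] at hbd hrun
  have hout : ((List.range D.K).flatMap fun k =>
        ((List.range D.P).flatMap fun x =>
          ((List.range D.G).flatMap fun g =>
            ((List.range D.P).flatMap fun y =>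
              List.replicate (63 * D.L - 1) (enc false) ++
                seg ((inputBits D V).map enc) e (0 + k * (D.P * (D.G * (D.P * D.L))) +
                  x * (D.G * (D.P * D.L)) +
                  g * (D.P * D.L) + y * D.L) (D.L) ++ [enc true]) ++
            List.replicate (D.P * (D.L * 64)) (enc false)) ++
          List.replicate (D.L * 64) (enc false)) ++
        List.replicate (D.P * (D.G * (D.P * (4 * (D.L * 64))))) (enc false)) =
      (packBits D V).map enc := by
    unfold packBits
    rw [List.map_flatMap]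
    apply flatMap_range_congr
    intro k hk
    rw [List.map_append, List.map_flatMap, map_zeros]
    have e1 : 2 * D.P * D.R * D.W = D.P * (D.G * (D.P * (4 * (D.L * 64)))) := by
      unfold Dim.R Dim.W
      ring
    rw [e1]
    congr 1
    apply flatMap_range_congr
    intro x hx
    rw [List.map_append, List.map_flatMap, map_zeros]
    have e2 : D.W = D.L * 64 := by
      unfold Dim.W
      ring
    rw [e2]
    congr 1
    apply flatMap_range_congr
    intro g hg
    rw [List.map_append, List.map_flatMap, map_zeros]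
    congr 1
    apply flatMap_range_congr
    intro y hy
    rw [List.map_append, List.map_append, map_zeros, Nat.zero_add,
      seg_inputBits enc e D V hV k x g y hk hx hg hy]
    rfl
  rw [hout] at hrun
  exact hrun.mono (by omega)

end LP

end Vale.Agent.P338.R2.H806
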