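import Vale.Agent.P338.R2.H806.Pack

/-!
The passes generating the kernels.
-/

namespace Vale.Agent.P338.R2.H806

open Vale.Agent.P338.R2.H898

variable {M F α : Type} [DecidableEq F]

namespace LP

variable {m : F → ℕ} {w : List α} {e : α}

/-- The slot of the first kernel. -/
def gslot1 (rL rT rE : F) (z o : α) : LP F α :=
  seq (zpre rL 59 z) (seq (forCo rE (loop rT (emit z))) (seq (emit o)
    (forReg rE (loop rT (emit z)))))

/-- The pattern. -/
def patLP (rL : F) (z o : α) : LP F α :=
  rep 6 (seq (loop rL (rep 2 (emit z))) (loop rL (rep 2 (emit o))))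

/-- The slot of the second kernel. -/
def gslot2 (rL rT rE : F) (z o : α) : LP F α :=
  seq (loop rL (rep 36 (emit z))) (seq (forCo rE (loop rT (emit z))) (seq (patLP rL z o)
    (forReg rE (loop rT (emit z)))))

/-- The zeros of a row of a kernel. -/
def rowZeros (rG rC rL : F) (z : α) : LP F α :=
  seq (seq (inc rC) (loop rC (zslot rL z))) (seq (inc rG) (loop rG (loop rC (zslot rL z))))

/-- The program generating a kernel. -/
def genLP (rD rE rG rC rL : F) (z : α) (slot : LP F α) : LP F α :=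
  loop rD (seq slot (seq (rowZeros rG rC rL z) (seq (forReg rD (rep 2 (inc rE))) (inc rE))))

theorem ev_tau {rT : F} (z : α) {v : F → ℕ} (hT : v rT = 0) (p : ℕ) :
    Ev m w e (loop rT (emit z)) v p v 0 (List.replicate (m rT) z) := by
  have := ev_loop_const0 (m := m) (w := w) (e := e) hT 1 z (fun _ p => ev_emit z _ p) p
  rwa [Nat.mul_one] at this

theorem ev_gslot1 {rL rT rE : F} (z o : α) {v : F → ℕ} (hL : v rL = 0) (hT : v rT = 0)
    (hL2 : 2 ≤ m rL) (hE : v rE ≤ m rE) (hET : m rE * m rT = 4 * m rL) (p : ℕ) :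
    Ev m w e (gslot1 rL rT rE z o) v p v 0
      (List.replicate (64 * m rL - 1 - m rT * v rE) z ++ [o] ++
        List.replicate (m rT * v rE) z) := by
  have h1 := ev_zpre (m := m) (w := w) (e := e) rL 59 z hL hL2 p
  have h2 := ev_forCo_const (m := m) (w := w) (e := e) (r := rE) (m rT) z
    (fun p => ev_tau z hT p) (p + 0)
  have h3 := ev_emit (m := m) (w := w) (e := e) o v (p + 0 + 0)
  have h4 := ev_forReg_const (m := m) (w := w) (e := e) (r := rE) (m rT) z
    (fun p => ev_tau z hT p) (p + 0 + 0 + 0)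
  refine (h1.seq (h2.seq (h3.seq h4))).congr rfl rfl ?_
  have e1 : (m rE - v rE) * m rT = 4 * m rL - m rT * v rE := by
    rw [Nat.sub_mul, hET, Nat.mul_comm (v rE)]
  have e2 : m rT * v rE ≤ 4 * m rL := by
    rw [← hET, Nat.mul_comm]
    exact Nat.mul_le_mul_right _ hE
  have e3 : 64 * m rL - 1 - m rT * v rE =
      (m rL * 59 + (m rL - 1)) + (4 * m rL - m rT * v rE) := by omega
  rw [e1, e3, Nat.mul_comm (v rE)]
  generalize m rL * 59 + (m rL - 1) = A
  rw [List.replicate_add]
  simp only [List.append_assoc]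

theorem ev_patLP {rL : F} (z o : α) {v : F → ℕ} (hL : v rL = 0) (p : ℕ) :
    Ev m w e (patLP rL z o) v p v 0 ((List.range 6).flatMap fun _ =>
      List.replicate (2 * m rL) z ++ List.replicate (2 * m rL) o) := by
  have h1 : ∀ p, Ev m w e (seq (loop rL (rep 2 (emit z))) (loop rL (rep 2 (emit o)))) v p v 0
      (List.replicate (2 * m rL) z ++ List.replicate (2 * m rL) o) := by
    intro p
    have a1 := ev_loop_const0 (m := m) (w := w) (e := e) hL 2 z (fun _ p => ev_rep_emit z _ 2 p) p
    have a2 := ev_loop_const0 (m := m) (w := w) (e := e) hL 2 o (fun _ p => ev_rep_emit o _ 2 p)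
      (p + 0)
    refine (a1.seq a2).congr rfl rfl ?_
    rw [Nat.mul_comm]
  refine (ev_rep h1 6 p).congr rfl rfl ?_
  generalize List.replicate (2 * m rL) z ++ List.replicate (2 * m rL) o = x
  simp [List.replicate_succ, List.range_succ]

theorem ev_gslot2 {rL rT rE : F} (z o : α) {v : F → ℕ} (hL : v rL = 0) (hT : v rT = 0)
    (hE : v rE ≤ m rE) (hET : m rE * m rT = 4 * m rL) (p : ℕ) :
    Ev m w e (gslot2 rL rT rE z o) v p v 0
      (List.replicate (40 * m rL - m rT * v rE) z ++ ((List.range 6).flatMap fun _ =>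
        List.replicate (2 * m rL) z ++ List.replicate (2 * m rL) o) ++
        List.replicate (m rT * v rE) z) := by
  have h1 := ev_loop_const0 (m := m) (w := w) (e := e) hL 36 z (fun _ p => ev_rep_emit z _ 36 p) p
  have h2 := ev_forCo_const (m := m) (w := w) (e := e) (r := rE) (m rT) z
    (fun p => ev_tau z hT p) (p + 0)
  have h3 := ev_patLP (m := m) (w := w) (e := e) z o hL (p + 0 + 0)
  have h4 := ev_forReg_const (m := m) (w := w) (e := e) (r := rE) (m rT) z
    (fun p => ev_tau z hT p) (p + 0 + 0 + 0)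
  refine (h1.seq (h2.seq (h3.seq h4))).congr rfl rfl ?_
  have e1 : (m rE - v rE) * m rT = 4 * m rL - m rT * v rE := by
    rw [Nat.sub_mul, hET, Nat.mul_comm (v rE)]
  have e2 : m rT * v rE ≤ 4 * m rL := by
    rw [← hET, Nat.mul_comm]
    exact Nat.mul_le_mul_right _ hE
  have e3 : 40 * m rL - m rT * v rE = m rL * 36 + (4 * m rL - m rT * v rE) := by omega
  rw [e1, e3, Nat.mul_comm (v rE), List.replicate_add]
  simp only [List.append_assoc]

theorem ev_rowZeros {rG rC rL : F} (hnd : [rG, rC, rL].Nodup) (z : α) {v : F → ℕ}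
    (hG : v rG = 0) (hC : v rC = 0) (hL : v rL = 0) (hG2 : 2 ≤ m rG) (hC2 : 2 ≤ m rC) (p : ℕ) :
    Ev m w e (rowZeros rG rC rL z) v p v 0
      (List.replicate ((m rG * m rC - 1) * (m rL * 64)) z) := by
  simp only [List.nodup_cons, List.mem_cons, List.not_mem_nil, or_false, not_or] at hnd
  obtain ⟨⟨hGC, hGL⟩, hCL, _⟩ := hnd
  have i1 : ∀ p, Ev m w e (inc rC) v p (Function.update v rC 1) 0 [] := by
    intro p
    have := ev_inc (m := m) (w := w) (e := e) rC v p
    rwa [hC, Nat.zero_add, Nat.mod_eq_of_lt (show 1 < m rC by omega)] at this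
  have i2 : ∀ p, Ev m w e (inc rG) v p (Function.update v rG 1) 0 [] := by
    intro p
    have := ev_inc (m := m) (w := w) (e := e) rG v p
    rwa [hG, Nat.zero_add, Nat.mod_eq_of_lt (show 1 < m rG by omega)] at this
  have hs : ∀ (v' : F → ℕ), v' rL = 0 → ∀ p, Ev m w e (zslot rL z) v' p v' 0
      (List.replicate (m rL * 64) z) := fun v' h p => ev_zslot rL z h p
  have l1 : ∀ p, Ev m w e (loop rC (zslot rL z)) (Function.update v rC 1) p v 0
      (List.replicate ((m rC - 1) * (m rL * 64)) z) := by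
    intro p
    have := ev_loop_const (m := m) (w := w) (e := e) (r := rC) (a := zslot rL z)
      (v := Function.update v rC 1) (v' := v) (by rw [Function.update_self]; omega) (by
        rw [Function.update_idem]
        exact update_zero hC) (m rL * 64) z (fun i p => hs _ (by
        rw [Function.update_of_ne (Ne.symm hCL), Function.update_of_ne (Ne.symm hCL), hL]) p) p
    rwa [Function.update_self] at this
  have l2 : ∀ (v' : F → ℕ), v' rC = 0 → v' rL = 0 → ∀ p, Ev m w e (loop rC (zslot rL z)) v' p v' 0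
      (List.replicate (m rC * (m rL * 64)) z) := by
    intro v' h1 h2 p
    exact ev_loop_const0 h1 _ z (fun i p => hs _ (by
      rw [Function.update_of_ne (Ne.symm hCL), h2]) p) p
  have l3 : ∀ p, Ev m w e (loop rG (loop rC (zslot rL z))) (Function.update v rG 1) p v 0
      (List.replicate ((m rG - 1) * (m rC * (m rL * 64))) z) := by
    intro p
    have := ev_loop_const (m := m) (w := w) (e := e) (r := rG) (a := loop rC (zslot rL z))
      (v := Function.update v rG 1) (v' := v) (by rw [Function.update_self]; omega) (by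
        rw [Function.update_idem]
        exact update_zero hG) (m rC * (m rL * 64)) z (fun i p => l2 _ (by
        rw [Function.update_of_ne (Ne.symm hGC), Function.update_of_ne (Ne.symm hGC), hC]) (by
        rw [Function.update_of_ne (Ne.symm hGL), Function.update_of_ne (Ne.symm hGL), hL]) p) p
    rwa [Function.update_self] at this
  refine (((i1 p).seq (l1 _)).seq ((i2 _).seq (l3 _))).congr rfl rfl ?_
  rw [List.nil_append, List.nil_append, List.replicate_append_replicate]
  congr 1
  obtain ⟨c, hc⟩ : ∃ c, m rC = c + 1 := ⟨m rC - 1, by omega⟩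
  obtain ⟨g, hg⟩ : ∃ g, m rG = g + 1 := ⟨m rG - 1, by omega⟩
  have h1 : (g + 1) * (c + 1) - 1 = c + g * (c + 1) := by
    have : (g + 1) * (c + 1) = c + g * (c + 1) + 1 := by ring
    omega
  rw [hc, hg, h1, Nat.add_sub_cancel, Nat.add_sub_cancel]
  ring

theorem ev_genLP {rD rE rG rC rL : F} (hnd : [rD, rE, rG, rC, rL].Nodup) (z : α) (slot : LP F α)
    (out : ℕ → List α) {v : F → ℕ} (hD : v rD = 0) (hE : v rE = 0) (hG : v rG = 0) (hC : v rC = 0)
    (hL : v rL = 0) (hG2 : 2 ≤ m rG) (hC2 : 2 ≤ m rC) (hDE : m rD = m rE) (hE0 : 0 < m rE)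
    (hslot : ∀ d < m rD, ∀ p, Ev m w e slot
      (Function.update (Function.update v rE (d ^ 2 % m rE)) rD d) p
      (Function.update (Function.update v rE (d ^ 2 % m rE)) rD d) 0 (out d)) (p : ℕ) :
    Ev m w e (genLP rD rE rG rC rL z slot) v p v 0
      ((List.range (m rD)).flatMap fun d => out d ++
        List.replicate ((m rG * m rC - 1) * (m rL * 64)) z) := by
  simp only [List.nodup_cons, List.mem_cons, List.not_mem_nil, or_false, not_or] at hnd
  obtain ⟨⟨hDE', hDG, hDC, hDL⟩, ⟨hEG, hEC, hEL⟩, ⟨hGC, hGL⟩, hCL, _⟩ := hnd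
  have hnd3 : [rG, rC, rL].Nodup := by
    simp only [List.nodup_cons, List.mem_cons, List.not_mem_nil, or_false, not_or]
    tauto
  have hbody : ∀ d < m rD, Ev m w e (seq slot (seq (rowZeros rG rC rL z)
      (seq (forReg rD (rep 2 (inc rE))) (inc rE))))
      (Function.update ((fun i => Function.update v rE (i ^ 2 % m rE)) d) rD d) (p + d * 0)
      (Function.update ((fun i => Function.update v rE (i ^ 2 % m rE)) (d + 1)) rD d) 0
      (out d ++ List.replicate ((m rG * m rC - 1) * (m rL * 64)) z) := by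
    intro d hd
    set v1 := Function.update (Function.update v rE (d ^ 2 % m rE)) rD d with hv1
    have g1 : v1 rG = 0 := by
      rw [hv1, Function.update_of_ne (Ne.symm hDG), Function.update_of_ne (Ne.symm hEG), hG]
    have g2 : v1 rC = 0 := by
      rw [hv1, Function.update_of_ne (Ne.symm hDC), Function.update_of_ne (Ne.symm hEC), hC]
    have g3 : v1 rL = 0 := by
      rw [hv1, Function.update_of_ne (Ne.symm hDL), Function.update_of_ne (Ne.symm hEL), hL]
    have g4 : v1 rE = d ^ 2 % m rE := by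
      rw [hv1, Function.update_of_ne (Ne.symm hDE'), Function.update_self]
    have g5 : v1 rD = d := by rw [hv1, Function.update_self]
    have a1 := hslot d hd (p + d * 0)
    rw [← hv1] at a1
    have a2 := ev_rowZeros (m := m) (w := w) (e := e) hnd3 z g1 g2 g3 hG2 hC2 (p + d * 0 + 0)
    have a3 := ev_forReg_inc (m := m) (w := w) (e := e) (q := rD) (r := rE) hE0 2 v1
      (by rw [g4]; exact Nat.mod_lt _ hE0) (p + d * 0 + 0 + 0)
    have a4 := ev_inc (m := m) (w := w) (e := e) rE
      (Function.update v1 rE ((v1 rE + v1 rD * 2) % m rE)) (p + d * 0 + 0 + 0 + 0)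
    refine (a1.seq (a2.seq (a3.seq a4))).congr ?_ rfl (by simp)
    rw [Function.update_idem, Function.update_self, g4, g5, Nat.mod_add_mod, Nat.add_assoc,
      Nat.mod_add_mod]
    have e1 : d ^ 2 + (d * 2 + 1) = (d + 1) ^ 2 := by ring
    rw [e1, hv1, Function.update_comm (Ne.symm hDE'), Function.update_idem]
    exact Function.update_comm hDE' _ _ _
  have := ev_loop (m := m) (w := w) (e := e) (r := rD)
    (fun i => Function.update v rE (i ^ 2 % m rE)) 0 _ (p := p) (v := v) (v' := v) (by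
      rw [show (0 : ℕ) ^ 2 % m rE = 0 by simp, update_zero hE, update_zero hD]) (by
      rw [hDE, show (m rE) ^ 2 % m rE = 0 by
        rw [pow_two]
        exact Nat.mul_mod_left _ _, update_zero hE, update_zero hD]) hbody
  exact this

omit [DecidableEq F] in
theorem bd_zslot (rL : F) (z : α) (hL : 1 ≤ m rL) : bd m (zslot rL z) ≤ 133 * m rL := by
  simp only [zslot, bd, bd_rep]
  omega

omit [DecidableEq F] in
theorem bd_gslot1 (rL rT rE : F) (z o : α) (hL : 1 ≤ m rL) (hT : 1 ≤ m rT) (hE : 1 ≤ m rE)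
    (hET : m rE * m rT = 4 * m rL) : bd m (gslot1 rL rT rE z o) ≤ 300 * m rL := by
  have a1 : bd m (loop rT (emit z)) ≤ 6 * m rT := by
    rw [bd, bd]
    omega
  have a2 : bd m (forCo rE (loop rT (emit z))) ≤ 15 * (m rE * m rT) := bd_forCo_le hT hE a1
  have a3 : bd m (forReg rE (loop rT (emit z))) ≤ 12 * (m rE * m rT) := bd_forReg_le hT hE a1
  rw [hET] at a2 a3
  have a4 : bd m (zpre rL 59 z) ≤ 140 * m rL := by
    simp only [zpre, bd, bd_rep]
    omega
  simp only [gslot1]
  rw [bd, bd, bd, bd]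
  omega

omit [DecidableEq F] in
theorem bd_gslot2 (rL rT rE : F) (z o : α) (hL : 1 ≤ m rL) (hT : 1 ≤ m rT) (hE : 1 ≤ m rE)
    (hET : m rE * m rT = 4 * m rL) : bd m (gslot2 rL rT rE z o) ≤ 400 * m rL := by
  have a1 : bd m (loop rT (emit z)) ≤ 6 * m rT := by
    rw [bd, bd]
    omega
  have a2 : bd m (forCo rE (loop rT (emit z))) ≤ 15 * (m rE * m rT) := bd_forCo_le hT hE a1
  have a3 : bd m (forReg rE (loop rT (emit z))) ≤ 12 * (m rE * m rT) := bd_forReg_le hT hE a1
  rw [hET] at a2 a3
  have a4 : bd m (loop rL (rep 36 (emit z))) ≤ 80 * m rL := by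
    simp only [bd, bd_rep]
    omega
  have a5 : bd m (patLP rL z o) ≤ 150 * m rL := by
    simp only [patLP, bd, bd_rep]
    omega
  simp only [gslot2]
  rw [bd, bd, bd]
  omega

omit [DecidableEq F] in
theorem bd_rowZeros (rG rC rL : F) (z : α) (hG : 1 ≤ m rG) (hC : 1 ≤ m rC) (hL : 1 ≤ m rL) :
    bd m (rowZeros rG rC rL z) ≤ 300 * (m rG * (m rC * m rL)) := by
  have q1 : 1 ≤ m rC * m rL := Nat.mul_pos hC hL
  have a1 := bd_zslot (m := m) rL z hL
  have a2 : bd m (loop rC (zslot rL z)) ≤ 137 * (m rC * m rL) := bd_loop_le hL hC a1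
  have a3 : bd m (loop rG (loop rC (zslot rL z))) ≤ 141 * (m rG * (m rC * m rL)) :=
    bd_loop_le q1 hG a2
  have a4 : m rC * m rL ≤ m rG * (m rC * m rL) := Nat.le_mul_of_pos_left _ hG
  simp only [rowZeros]
  rw [bd, bd, bd, bd, bd]
  omega

omit [DecidableEq F] in
theorem bd_genLP (rD rE rG rC rL : F) (z : α) (slot : LP F α) (c : ℕ) (hD : 1 ≤ m rD)
    (hE : 1 ≤ m rE) (hG : 1 ≤ m rG) (hC : 1 ≤ m rC) (hL : 1 ≤ m rL) (hDC : m rD = m rC)
    (hslot : bd m slot ≤ c * m rL) :
    bd m (genLP rD rE rG rC rL z slot) ≤ (c + 400) * (m rD * (m rG * (m rC * m rL))) := by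
  have q1 : 1 ≤ m rC * m rL := Nat.mul_pos hC hL
  have q2 : 1 ≤ m rG * (m rC * m rL) := Nat.mul_pos hG q1
  have a1 := bd_rowZeros (m := m) rG rC rL z hG hC hL
  have a2 : m rL ≤ m rG * (m rC * m rL) :=
    (Nat.le_mul_of_pos_left _ hC).trans (Nat.le_mul_of_pos_left _ hG)
  have a3 : m rD ≤ m rG * (m rC * m rL) := by
    rw [hDC]
    exact (Nat.le_mul_of_pos_right _ hL).trans (Nat.le_mul_of_pos_left _ hG)
  have a4 : bd m (forReg rD (rep 2 (inc rE)) : LP F α) ≤ 13 * m rD := by
    rw [bd, bd_rep, bd]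
    omega
  have a5 : c * m rL ≤ c * (m rG * (m rC * m rL)) := Nat.mul_le_mul_left _ a2
  have a6 : (c + 396) * (m rG * (m rC * m rL)) =
      c * (m rG * (m rC * m rL)) + 396 * (m rG * (m rC * m rL)) := by ring
  refine bd_loop_le (c := c + 396) q2 hD ?_
  rw [bd, bd, bd, bd, a6]
  omega

end LP

end Vale.Agent.P338.R2.H806
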