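import Vale.Agent.P338.R2.H806.Gen
import Vale.Agent.P338.R2.H806.Pack

/-!
The passes generating the kernels, against their specification.
-/

namespace Vale.Agent.P338.R2.H806

open Vale.Agent.P338.R2.H898

variable {M F α : Type} [DecidableEq F]

namespace LP

variable {m : F → ℕ} {w : List α} {e : α}

theorem run_congr_out {d : α} {P : Prog M F α} {s : Store M F α} {t : ℕ} {mem : M}
    {z : F → Zip α} {O : F} {a b : List α} (h : Prog.Run d P s t ⟨mem, Function.update z O ⟨[], a⟩⟩)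
    (hab : a = b) : Prog.Run d P s t ⟨mem, Function.update z O ⟨[], b⟩⟩ := hab ▸ h

theorem uses_genLP1 (rD rE rG rC rL rT : F) (z o : α) :
    (genLP rD rE rG rC rL z (gslot1 rL rT rE z o)).uses ⊆ {rD, rE, rG, rC, rL, rT} := by
  intro f hf
  simp only [genLP, gslot1, rowZeros, zpre, zslot, uses_rep, uses, Finset.mem_insert,
    Finset.mem_union, Finset.mem_singleton, Finset.notMem_empty, or_false, OfNat.ofNat_ne_zero,
    if_false] at hf ⊢
  tauto

theorem uses_genLP2 (rD rE rG rC rL rT : F) (z o : α) :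
    (genLP rD rE rG rC rL z (gslot2 rL rT rE z o)).uses ⊆ {rD, rE, rG, rC, rL, rT} := by
  intro f hf
  simp only [genLP, gslot2, patLP, rowZeros, zslot, uses_rep, uses, Finset.mem_insert,
    Finset.mem_union, Finset.mem_singleton, Finset.notMem_empty, or_false, OfNat.ofNat_ne_zero,
    if_false] at hf ⊢
  tauto

theorem marks_genLP1 (rD rE rG rC rL rT : F) (z o : α) :
    (genLP rD rE rG rC rL z (gslot1 rL rT rE z o)).marks ⊆ {rD, rE} := by
  intro f hf
  simp only [genLP, gslot1, rowZeros, zpre, zslot, marks_rep, marks, Finset.mem_insert,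
    Finset.mem_union, Finset.mem_singleton, Finset.notMem_empty, or_false, OfNat.ofNat_ne_zero,
    if_false] at hf ⊢
  tauto

theorem marks_genLP2 (rD rE rG rC rL rT : F) (z o : α) :
    (genLP rD rE rG rC rL z (gslot2 rL rT rE z o)).marks ⊆ {rD, rE} := by
  intro f hf
  simp only [genLP, gslot2, patLP, rowZeros, zslot, marks_rep, marks, Finset.mem_insert,
    Finset.mem_union, Finset.mem_singleton, Finset.notMem_empty, or_false, OfNat.ofNat_ne_zero,
    if_false] at hf ⊢
  tauto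

theorem WF_genLP1 {rD rE rG rC rL rT : F} (hnd : [rD, rE, rG, rC, rL, rT].Nodup) (z o : α) :
    (genLP rD rE rG rC rL z (gslot1 rL rT rE z o)).WF := by
  simp only [List.nodup_cons, List.mem_cons, List.not_mem_nil, or_false, not_or] at hnd
  simp only [genLP, gslot1, rowZeros, zpre, zslot, WF_rep, writes_rep, WF, writes, uses_rep,
    uses, Finset.mem_insert, Finset.mem_union, Finset.mem_singleton, Finset.notMem_empty, or_false,
    OfNat.ofNat_ne_zero, if_false]
  tauto

theorem WF_genLP2 {rD rE rG rC rL rT : F} (hnd : [rD, rE, rG, rC, rL, rT].Nodup) (z o : α) :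
    (genLP rD rE rG rC rL z (gslot2 rL rT rE z o)).WF := by
  simp only [List.nodup_cons, List.mem_cons, List.not_mem_nil, or_false, not_or] at hnd
  simp only [genLP, gslot2, patLP, rowZeros, zslot, WF_rep, writes_rep, WF, writes, uses_rep,
    uses, Finset.mem_insert, Finset.mem_union, Finset.mem_singleton, Finset.notMem_empty, or_false,
    OfNat.ofNat_ne_zero, if_false]
  tauto

open H525 in
theorem tau_mul (D : Dim) (h : D.s ≤ D.h) : 2 * D.P * D.tau = 4 * D.L := by
  unfold Dim.tau Dim.L Dim.P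
  have h1 : 2 ^ D.h = 2 ^ D.s * 2 ^ (D.h - D.s) := by rw [← pow_add]; congr 1; omega
  rw [h1]
  have h2 : 2 * (2 ^ D.s * 2 ^ (D.h - D.s)) = 2 ^ D.s * (2 * 2 ^ (D.h - D.s)) := by ring
  rw [h2, Nat.mul_div_cancel_left _ (by positivity)]
  ring

open H525 in
theorem tau_pos (D : Dim) (h : D.s ≤ D.h) : 1 ≤ D.tau := by
  have h1 := tau_mul D h
  have h2 : 1 ≤ D.L := Nat.one_le_two_pow
  rcases Nat.eq_zero_or_pos D.tau with h3 | h3
  · rw [h3, Nat.mul_zero] at h1
    omega
  · exact h3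

open H525 in
/-- The hypotheses on the rulers of a kernel pass. -/
structure GenRulers (D : Dim) (one : α) (z : F → Zip α) (rD rE rG rC rL rT : F) : Prop where
  hD : z rD = ⟨[], List.replicate (2 * D.P) one⟩
  hE : z rE = ⟨[], List.replicate (2 * D.P) one⟩
  hG : ∃ c, z rG = ⟨[], c⟩ ∧ c.length = D.G
  hC : ∃ c, z rC = ⟨[], c⟩ ∧ c.length = 2 * D.P
  hL : ∃ c, z rL = ⟨[], c⟩ ∧ c.length = D.L
  hT : ∃ c, z rT = ⟨[], c⟩ ∧ c.length = D.tau

open H525 in
/-- The pass generating a kernel. -/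
theorem run_gen [DecidableEq α] {d : α} (D : Dim) (hG : 2 ≤ D.G) (hs : D.s ≤ D.h)
    (one mk e z0 : α) (hmk : one ≠ mk) (I O rD rE rG rC rL rT : F)
    (hnd : [rD, rE, rG, rC, rL, rT, I, O].Nodup) (mem : M) (z : F → Zip α) (w : List α)
    (hzI : z I = ⟨[], w⟩) (hzO : z O = ⟨[], []⟩) (hr : GenRulers D one z rD rE rG rC rL rT)
    (slot : LP F α) (hu : (genLP rD rE rG rC rL z0 slot).uses ⊆ {rD, rE, rG, rC, rL, rT})
    (hm : (genLP rD rE rG rC rL z0 slot).marks ⊆ {rD, rE})
    (hwf : (genLP rD rE rG rC rL z0 slot).WF) (c : ℕ)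
    (out : ℕ → List α)
    (hslot : ∀ (m : F → ℕ), m rD = 2 * D.P → m rE = 2 * D.P → m rG = D.G → m rC = 2 * D.P →
      m rL = D.L → m rT = D.tau → bd m slot ≤ c * D.L ∧
      ∀ v : F → ℕ, v rE ≤ 2 * D.P → v rL = 0 → v rT = 0 → ∀ p,
        Ev m w e slot v p v 0 (out (D.tau * v rE))) :
    Prog.Run d (passP I O one mk e (genLP rD rE rG rC rL z0 slot)) ⟨mem, z⟩
      ((c + 400) * (2 * D.P * (D.G * (2 * D.P * D.L))) + 2)
      ⟨mem, Function.update z O ⟨[], (List.range (2 * D.P)).flatMap fun d => out (D.eG d) ++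
        List.replicate ((D.R - 1) * D.W) z0⟩⟩ := by
  have hP : 1 ≤ D.P := Nat.one_le_two_pow
  have hL : 1 ≤ D.L := Nat.one_le_two_pow
  have hT : 1 ≤ D.tau := tau_pos D hs
  set m : F → ℕ := fun f => (z f).r.length with hmdef
  have mD : m rD = 2 * D.P := by simp [hmdef, hr.hD]
  have mE : m rE = 2 * D.P := by simp [hmdef, hr.hE]
  have mG : m rG = D.G := by obtain ⟨c, h1, h2⟩ := hr.hG; simp [hmdef, h1, h2]
  have mC : m rC = 2 * D.P := by obtain ⟨c, h1, h2⟩ := hr.hC; simp [hmdef, h1, h2]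
  have mL : m rL = D.L := by obtain ⟨c, h1, h2⟩ := hr.hL; simp [hmdef, h1, h2]
  have mT : m rT = D.tau := by obtain ⟨c, h1, h2⟩ := hr.hT; simp [hmdef, h1, h2]
  simp only [List.nodup_cons, List.mem_cons, List.not_mem_nil, or_false, not_or] at hnd
  obtain ⟨⟨hDE, hDG, hDC, hDL, hDT, hDI, hDO⟩, ⟨hEG, hEC, hEL, hET, hEI, hEO⟩,
    ⟨hGC, hGL, hGT, hGI, hGO⟩, ⟨hCL, hCT, hCI, hCO⟩, ⟨hLT, hLI, hLO⟩, ⟨hTI, hTO⟩, hIO', _⟩ := hnd
  have hnd5 : [rD, rE, rG, rC, rL].Nodup := by
    simp [hDE, hDG, hDC, hDL, hEG, hEC, hEL, hGC, hGL, hCL]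
  have hndI : I ∉ ({rD, rE, rG, rC, rL, rT} : Finset F) := by
    simp [Ne.symm hDI, Ne.symm hEI, Ne.symm hGI, Ne.symm hCI, Ne.symm hLI, Ne.symm hTI]
  have hndO : O ∉ ({rD, rE, rG, rC, rL, rT} : Finset F) := by
    simp [Ne.symm hDO, Ne.symm hEO, Ne.symm hGO, Ne.symm hCO, Ne.symm hLO, Ne.symm hTO]
  have hIO : O ≠ I := Ne.symm hIO'
  have hall : ∀ r ∈ ({rD, rE, rG, rC, rL, rT} : Finset F), (∃ c, z r = ⟨[], c⟩) ∧ 0 < m r := by
    intro r hr'
    simp only [Finset.mem_insert, Finset.mem_singleton] at hr'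
    obtain ⟨c3, h3, _⟩ := hr.hG
    obtain ⟨c4, h4, _⟩ := hr.hC
    obtain ⟨c5, h5, _⟩ := hr.hL
    obtain ⟨c6, h6, _⟩ := hr.hT
    rcases hr' with rfl | rfl | rfl | rfl | rfl | rfl
    exacts [⟨⟨_, hr.hD⟩, by omega⟩, ⟨⟨_, hr.hE⟩, by omega⟩, ⟨⟨c3, h3⟩, by omega⟩,
      ⟨⟨c4, h4⟩, by omega⟩, ⟨⟨c5, h5⟩, by omega⟩, ⟨⟨c6, h6⟩, by omega⟩]
  have hruler : ∀ r ∈ (genLP rD rE rG rC rL z0 slot).uses,
      ∃ c, z r = ⟨[], c⟩ ∧ c.length = m r ∧
      (r ∈ (genLP rD rE rG rC rL z0 slot).marks → c = List.replicate (m r) one) := by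
    intro r hr'
    obtain ⟨c, hc⟩ := (hall r (hu hr')).1
    refine ⟨c, hc, by simp [hmdef, hc], fun h => ?_⟩
    have h2 := hm h
    simp only [Finset.mem_insert, Finset.mem_singleton] at h2
    rcases h2 with rfl | rfl
    · rw [hr.hD] at hc
      rw [mD]
      simpa using (congrArg Zip.r hc).symm
    · rw [hr.hE] at hc
      rw [mE]
      simpa using (congrArg Zip.r hc).symm
  have hpos : ∀ r ∈ (genLP rD rE rG rC rL z0 slot).uses, 0 < m r :=
    fun r hr' => (hall r (hu hr')).2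
  obtain ⟨hs1, hs2⟩ := hslot m mD mE mG mC mL mT
  have hev := ev_genLP (m := m) (w := w) (e := e) hnd5 z0 slot
    (fun d => out (D.eG d)) (v := fun _ => 0) rfl rfl rfl rfl rfl (by omega)
    (by omega) (by omega) (by omega) (by
      intro d' hd' p
      have h1 : (Function.update (Function.update (fun _ => 0) rE (d' ^ 2 % m rE)) rD d' : F → ℕ)
          rE = d' ^ 2 % (2 * D.P) := by
        rw [Function.update_of_ne (Ne.symm hDE), Function.update_self, mE]
      have h2 := hs2 (Function.update (Function.update (fun _ => 0) rE (d' ^ 2 % m rE)) rD d')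
        (by rw [h1]; exact (Nat.mod_lt _ (by omega)).le)
        (by rw [Function.update_of_ne (Ne.symm hDL), Function.update_of_ne (Ne.symm hEL)])
        (by rw [Function.update_of_ne (Ne.symm hDT), Function.update_of_ne (Ne.symm hET)]) p
      rw [h1] at h2
      exact h2) 0
  have hrun := run_pass (d := d) _ hwf I O hIO (fun h => hndI (hu h)) (fun h => hndO (hu h))
    one mk e hmk mem z _ m hzI hzO hruler hpos (fun _ _ => rfl) hev
  have hbd := bd_genLP (m := m) rD rE rG rC rL z0 slot c (by omega) (by omega)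
    (by omega) (by omega) (by omega) (by omega) (by rw [mL]; exact hs1)
  rw [mD, mG, mC, mL] at hbd hrun
  have e1 : (D.G * (2 * D.P) - 1) * (D.L * 64) = (D.R - 1) * D.W := by
    unfold Dim.R Dim.W
    rw [Nat.mul_comm D.G, Nat.mul_comm D.L]
  rw [e1] at hrun
  exact hrun.mono (by omega)

open H525 in
/-- The pass generating the first kernel. -/
theorem run_gen1 [DecidableEq α] {d : α} (D : Dim) (hG : 2 ≤ D.G) (hs : D.s ≤ D.h) (hh : 1 ≤ D.h)
    (enc : Bool → α) (one mk e : α) (hmk : one ≠ mk) (I O rD rE rG rC rL rT : F)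
    (hnd : [rD, rE, rG, rC, rL, rT, I, O].Nodup) (mem : M) (z : F → Zip α) (w : List α)
    (hzI : z I = ⟨[], w⟩) (hzO : z O = ⟨[], []⟩) (hr : GenRulers D one z rD rE rG rC rL rT) :
    Prog.Run d (passP I O one mk e (genLP rD rE rG rC rL (enc false)
      (gslot1 rL rT rE (enc false) (enc true)))) ⟨mem, z⟩
      (700 * (2 * D.P * (D.G * (2 * D.P * D.L))) + 2)
      ⟨mem, Function.update z O ⟨[], (genBits1 D).map enc⟩⟩ := by
  have hP : 1 ≤ D.P := Nat.one_le_two_pow
  have hL : 1 ≤ D.L := Nat.one_le_two_pow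
  have hL2 : 2 ≤ D.L := by
    unfold Dim.L
    calc 2 = 2 ^ 1 := rfl
      _ ≤ 2 ^ D.h := Nat.pow_le_pow_right (by norm_num) hh
  have hT : 1 ≤ D.tau := tau_pos D hs
  have hnd6 : [rD, rE, rG, rC, rL, rT].Nodup := by
    simp only [List.nodup_cons, List.mem_cons, List.not_mem_nil, or_false, not_or] at hnd ⊢
    tauto
  have := run_gen (d := d) D hG hs one mk e (enc false) hmk I O rD rE rG rC rL rT hnd mem z w hzI
    hzO hr (gslot1 rL rT rE (enc false) (enc true)) (uses_genLP1 _ _ _ _ _ _ _ _)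
    (marks_genLP1 _ _ _ _ _ _ _ _) (WF_genLP1 hnd6 _ _) 300
    (fun x => List.replicate (D.W - 1 - x) (enc false) ++ [enc true] ++
      List.replicate x (enc false)) (by
      intro m mD mE mG mC mL mT
      have hET : m rE * m rT = 4 * m rL := by
        rw [mE, mT, mL]
        exact tau_mul D hs
      refine ⟨?_, ?_⟩
      · rw [← mL]
        exact bd_gslot1 rL rT rE _ _ (by omega) (by omega) (by omega) hET
      · intro v h1 h2 h3 p
        have := ev_gslot1 (m := m) (w := w) (e := e) (enc false) (enc true) h2 h3 (by omega)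
          (by rw [mE]; exact h1) hET p
        rw [mL, mT] at this
        exact this)
  refine run_congr_out this ?_
  unfold genBits1
  rw [List.map_flatMap]
  apply flatMap_range_congr
  intro d' _
  simp [zeros]

open H525 in
/-- The pass generating the second kernel. -/
theorem run_gen2 [DecidableEq α] {d : α} (D : Dim) (hG : 2 ≤ D.G) (hs : D.s ≤ D.h)
    (enc : Bool → α) (one mk e : α) (hmk : one ≠ mk) (I O rD rE rG rC rL rT : F)
    (hnd : [rD, rE, rG, rC, rL, rT, I, O].Nodup) (mem : M) (z : F → Zip α) (w : List α)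
    (hzI : z I = ⟨[], w⟩) (hzO : z O = ⟨[], []⟩) (hr : GenRulers D one z rD rE rG rC rL rT) :
    Prog.Run d (passP I O one mk e (genLP rD rE rG rC rL (enc false)
      (gslot2 rL rT rE (enc false) (enc true)))) ⟨mem, z⟩
      (800 * (2 * D.P * (D.G * (2 * D.P * D.L))) + 2)
      ⟨mem, Function.update z O ⟨[], (genBits2 D).map enc⟩⟩ := by
  have hP : 1 ≤ D.P := Nat.one_le_two_pow
  have hL : 1 ≤ D.L := Nat.one_le_two_pow
  have hT : 1 ≤ D.tau := tau_pos D hs
  have hnd6 : [rD, rE, rG, rC, rL, rT].Nodup := by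
    simp only [List.nodup_cons, List.mem_cons, List.not_mem_nil, or_false, not_or] at hnd ⊢
    tauto
  have := run_gen (d := d) D hG hs one mk e (enc false) hmk I O rD rE rG rC rL rT hnd mem z w hzI
    hzO hr (gslot2 rL rT rE (enc false) (enc true)) (uses_genLP2 _ _ _ _ _ _ _ _)
    (marks_genLP2 _ _ _ _ _ _ _ _) (WF_genLP2 hnd6 _ _) 400
    (fun x => List.replicate (40 * D.L - x) (enc false) ++ ((List.range 6).flatMap fun _ =>
        List.replicate (2 * D.L) (enc false) ++ List.replicate (2 * D.L) (enc true)) ++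
      List.replicate x (enc false)) (by
      intro m mD mE mG mC mL mT
      have hET : m rE * m rT = 4 * m rL := by
        rw [mE, mT, mL]
        exact tau_mul D hs
      refine ⟨?_, ?_⟩
      · rw [← mL]
        exact bd_gslot2 rL rT rE _ _ (by omega) (by omega) (by omega) hET
      · intro v h1 h2 h3 p
        have := ev_gslot2 (m := m) (w := w) (e := e) (enc false) (enc true) h2 h3
          (by rw [mE]; exact h1) hET p
        rw [mL, mT] at this
        exact this)
  refine run_congr_out this ?_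
  unfold genBits2 pattern
  rw [List.map_flatMap]
  apply flatMap_range_congr
  intro d' _
  simp [zeros, ones, List.map_flatMap]

end LP

end Vale.Agent.P338.R2.H806
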