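import Vale.Agent.P338.R2.H898.Zip

/-!
A loop language with unary registers, one input stream and one output stream, and its
compilation to programs on files.
-/

namespace Vale.Agent.P338.R2.H806

open Vale.Agent.P338.R2.H898

variable {M F α : Type} [DecidableEq F]

/-- The file with contents `w` and the head at position `p`. -/
def atp (w : List α) (p : ℕ) : Zip α := ⟨(w.take p).reverse, w.drop p⟩

/-- Loop programs. The registers are files; `copy` copies one symbol of the input to the output;
`inc r` increments `r` modulo its length; `loop r p` runs `p` with `r = v, v+1, …, m - 1` and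
resets `r` to `0`; `forReg r p` runs `p` as many times as the value `v` of `r`; `forCo r p` runs
`p` as many times as `m - v`. -/
inductive LP (F α : Type)
  | nop
  | emit (a : α)
  | copy
  | skip
  | inc (r : F)
  | seq (p q : LP F α)
  | loop (r : F) (p : LP F α)
  | forReg (r : F) (p : LP F α)
  | forCo (r : F) (p : LP F α)

/-- Abstract states: values of the registers, input position, output. -/
@[ext] structure PS (F α : Type) where
  /-- registers -/
  v : F → ℕ
  /-- input position -/
  p : ℕ
  /-- output -/
  o : List α

/-- Set a register. -/
def PS.set (s : PS F α) (r : F) (n : ℕ) : PS F α := ⟨Function.update s.v r n, s.p, s.o⟩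

namespace LP

/-- Semantics (`e` is the symbol read after the end of the input, `m` the lengths of the
rulers). -/
def eval (m : F → ℕ) (w : List α) (e : α) : LP F α → PS F α → PS F α
  | nop, s => s
  | emit a, s => ⟨s.v, s.p, s.o ++ [a]⟩
  | copy, s => ⟨s.v, s.p + 1, s.o ++ [w.getD s.p e]⟩
  | skip, s => ⟨s.v, s.p + 1, s.o⟩
  | inc r, s => s.set r ((s.v r + 1) % m r)
  | seq a b, s => eval m w e b (eval m w e a s)
  | loop r a, s =>
      ((fun s => (eval m w e a s).set r ((eval m w e a s).v r + 1))^[m r - s.v r] s).set r 0
  | forReg r a, s => (eval m w e a)^[s.v r] s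
  | forCo r a, s => (eval m w e a)^[m r - s.v r] s

/-- The registers mentioned. -/
def uses : LP F α → Finset F
  | nop => ∅
  | emit _ => ∅
  | copy => ∅
  | skip => ∅
  | inc r => {r}
  | seq a b => uses a ∪ uses b
  | loop r a => insert r (uses a)
  | forReg r a => insert r (uses a)
  | forCo r a => insert r (uses a)

/-- The registers whose value is changed. -/
def writes : LP F α → Finset F
  | nop => ∅
  | emit _ => ∅
  | copy => ∅
  | skip => ∅
  | inc r => {r}
  | seq a b => writes a ∪ writes b
  | loop r a => insert r (writes a)
  | forReg _ a => writes a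
  | forCo _ a => writes a

/-- The registers used for `forReg` or `forCo`. -/
def marks : LP F α → Finset F
  | nop => ∅
  | emit _ => ∅
  | copy => ∅
  | skip => ∅
  | inc _ => ∅
  | seq a b => marks a ∪ marks b
  | loop _ a => marks a
  | forReg r a => insert r (marks a)
  | forCo r a => insert r (marks a)

/-- Well-formed programs. -/
def WF : LP F α → Prop
  | nop => True
  | emit _ => True
  | copy => True
  | skip => True
  | inc _ => True
  | seq a b => WF a ∧ WF b
  | loop r a => r ∉ writes a ∧ WF a
  | forReg r a => r ∉ uses a ∧ WF a
  | forCo r a => r ∉ uses a ∧ WF a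

instance decWF : ∀ a : LP F α, Decidable (WF a)
  | nop => isTrue trivial
  | emit _ => isTrue trivial
  | copy => isTrue trivial
  | skip => isTrue trivial
  | inc _ => isTrue trivial
  | seq a b => by
      have := decWF a
      have := decWF b
      unfold WF
      infer_instance
  | loop r a => by
      have := decWF a
      unfold WF
      infer_instance
  | forReg r a => by
      have := decWF a
      unfold WF
      infer_instance
  | forCo r a => by
      have := decWF a
      unfold WF
      infer_instance

/-- Bound of the cost. -/
def bd (m : F → ℕ) : LP F α → ℕ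
  | nop => 1
  | emit _ => 2
  | copy => 3
  | skip => 1
  | inc _ => 3
  | seq a b => bd m a + bd m b
  | loop r a => m r * (bd m a + 2) + 2
  | forReg r a => m r * (bd m a + 2) + 4
  | forCo r a => m r * (bd m a + 4) + 5

/-- The instruction doing one operation on one file. -/
def opP (f : F) (o : Op α) : Prog M F α := .prim fun m _ => (m, some (f, o))

/-- The empty instruction. -/
def nopP : Prog M F α := .prim fun m _ => (m, none)

/-- The instruction skipping a symbol of the input. -/
def skipP (I : F) : Prog M F α :=
  .prim fun m r => (m, if (r I).isSome then some (I, .right) else none)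

/-- Compilation: `I` is the input file, `O` the output file, `one` the symbol of the rulers, `mk`
the mark. -/
def compile [DecidableEq α] (I O : F) (one mk e : α) : LP F α → Prog M F α
  | nop => nopP
  | emit a => .seq (opP O (.write a)) (opP O .right)
  | copy => .seq (.prim fun m r => (m, some (O, .write ((r I).getD e))))
      (.seq (opP O .right) (skipP I))
  | skip => skipP I
  | inc r => .seq (opP r .right) (.ite (fun _ x => (x r).isNone) (opP r .rew) nopP)
  | seq a b => .seq (compile I O one mk e a) (compile I O one mk e b)
  | loop r a => .seq (.loop (fun _ x => (x r).isSome) (.seq (compile I O one mk e a) (opP r .right)))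
      (opP r .rew)
  | forReg r a => .seq (opP r (.write mk)) (.seq (opP r .rew)
      (.seq (.loop (fun _ x => decide (x r ≠ some mk))
        (.seq (compile I O one mk e a) (opP r .right))) (opP r (.write one))))
  | forCo r a => .seq (opP r (.write mk)) (.seq (.loop (fun _ x => (x r).isSome)
        (.seq (compile I O one mk e a) (opP r .right)))
      (.seq (opP r .rew) (.seq (.loop (fun _ x => decide (x r ≠ some mk)) (opP r .right))
        (opP r (.write one)))))

end LP

/-- The store represented by an abstract state: `U` is the set of registers, `C` gives the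
contents of the rulers, `z` the other files. -/
def toZ (C : F → List α) (I O : F) (w : List α) (U : Finset F) (z : F → Zip α)
    (s : PS F α) : F → Zip α := fun f =>
  if f = I then atp w s.p else if f = O then ⟨s.o.reverse, []⟩ else
    if f ∈ U then atp (C f) (s.v f) else z f

section basic

variable {C : F → List α} {I O : F} {w : List α} {U : Finset F} {z : F → Zip α} {s : PS F α}

theorem toZ_I : toZ C I O w U z s I = atp w s.p := by simp [toZ]

theorem toZ_O (h : O ≠ I) : toZ C I O w U z s O = ⟨s.o.reverse, []⟩ := by simp [toZ, h]

theorem toZ_mem {f : F} (h : f ∈ U) (h1 : f ≠ I) (h2 : f ≠ O) :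
    toZ C I O w U z s f = atp (C f) (s.v f) := by simp [toZ, h, h1, h2]

theorem toZ_not_mem {f : F} (h : f ∉ U) (h1 : f ≠ I) (h2 : f ≠ O) :
    toZ C I O w U z s f = z f := by simp [toZ, h, h1, h2]

theorem update_toZ_mem {f : F} (h : f ∈ U) (h1 : f ≠ I) (h2 : f ≠ O) (n : ℕ) :
    Function.update (toZ C I O w U z s) f (atp (C f) n) = toZ C I O w U z (s.set f n) := by
  funext g
  by_cases hg : g = f
  · subst hg
    rw [Function.update_self, toZ_mem h h1 h2]
    simp [PS.set]
  · rw [Function.update_of_ne hg]
    simp [toZ, PS.set, Function.update_of_ne hg]

theorem update_toZ_I (n : ℕ) :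
    Function.update (toZ C I O w U z s) I (atp w n) = toZ C I O w U z ⟨s.v, n, s.o⟩ := by
  funext g
  by_cases hg : g = I
  · subst hg
    simp [toZ]
  · rw [Function.update_of_ne hg]
    simp [toZ, hg]

theorem update_toZ_O (h : O ≠ I) (o : List α) :
    Function.update (toZ C I O w U z s) O ⟨o.reverse, []⟩ = toZ C I O w U z ⟨s.v, s.p, o⟩ := by
  funext g
  by_cases hg : g = O
  · subst hg
    simp [toZ, h]
  · rw [Function.update_of_ne hg]
    simp [toZ, hg]

/-- Take a register out of `U`. -/
theorem toZ_erase {f : F} (h : f ∈ U) (h1 : f ≠ I) (h2 : f ≠ O) (x : Zip α) :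
    Function.update (toZ C I O w U z s) f x =
      toZ C I O w (U.erase f) (Function.update z f x) s := by
  funext g
  by_cases hg : g = f
  · subst hg
    simp [toZ, h1, h2]
  · rw [Function.update_of_ne hg]
    simp [toZ, hg]

theorem update_toZ_bg {f : F} (h : f ∉ U) (h1 : f ≠ I) (h2 : f ≠ O) (x : Zip α) :
    Function.update (toZ C I O w U z s) f x = toZ C I O w U (Function.update z f x) s := by
  funext g
  by_cases hg : g = f
  · subst hg
    simp [toZ, h, h1, h2]
  · rw [Function.update_of_ne hg]
    simp [toZ, Function.update_of_ne hg]

end basic

theorem atp_peek_isSome (w : List α) (p : ℕ) : (atp w p).peek.isSome = decide (p < w.length) := by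
  unfold atp Zip.peek
  by_cases h : p < w.length
  · simp [h]
  · simp [h]

theorem atp_peek (w : List α) (p : ℕ) : (atp w p).peek = w[p]? := by
  unfold atp Zip.peek
  simp

theorem right_atp (d : α) (w : List α) (p : ℕ) (h : p < w.length) :
    Op.app d .right (atp w p) = atp w (p + 1) := by
  have h1 : (w.take (p + 1)).reverse = w[p] :: (w.take p).reverse := by
    rw [List.take_add_one, List.getElem?_eq_getElem h]
    simp
  unfold atp
  rw [h1, List.drop_eq_getElem_cons h]
  rfl

theorem rew_atp (d : α) (w : List α) (p : ℕ) : Op.app d .rew (atp w p) = atp w 0 := by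
  unfold atp
  simp [Op.app]

theorem write_atp (d : α) (w : List α) (p : ℕ) (a : α) (h : p < w.length) :
    Op.app d (.write a) (atp w p) = atp (w.set p a) p := by
  have h1 : (w.set p a).take p = w.take p := by
    rw [List.take_set]
    exact List.set_eq_of_length_le (by simp)
  have h2 : (w.set p a).drop p = a :: w.drop (p + 1) := by
    rw [List.drop_eq_getElem_cons (by simpa using h), List.getElem_set_self,
      List.drop_set_of_lt (by omega)]
  unfold atp
  rw [h1, h2, List.drop_eq_getElem_cons h]
  rfl

theorem atp_succ_of_le (w : List α) (p : ℕ) (h : w.length ≤ p) : atp w (p + 1) = atp w p := by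
  unfold atp
  rw [List.take_of_length_le h, List.take_of_length_le (by omega), List.drop_of_length_le h,
    List.drop_of_length_le (by omega)]

namespace LP

open Prog

variable (m : F → ℕ) (w : List α) (e : α)

theorem writes_subset (a : LP F α) : a.writes ⊆ a.uses := by
  induction a with
  | nop => exact subset_rfl
  | emit a => exact subset_rfl
  | copy => exact subset_rfl
  | skip => exact subset_rfl
  | inc r => exact subset_rfl
  | seq a b iha ihb => exact Finset.union_subset_union iha ihb
  | loop r a ih => exact Finset.insert_subset_insert r ih
  | forReg r a ih => exact ih.trans (Finset.subset_insert r _)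
  | forCo r a ih => exact ih.trans (Finset.subset_insert r _)

theorem marks_subset (a : LP F α) : a.marks ⊆ a.uses := by
  induction a with
  | nop => exact subset_rfl
  | emit a => exact subset_rfl
  | copy => exact subset_rfl
  | skip => exact subset_rfl
  | inc r => simp [marks]
  | seq a b iha ihb => exact Finset.union_subset_union iha ihb
  | loop r a ih => exact ih.trans (Finset.subset_insert r _)
  | forReg r a ih => exact Finset.insert_subset_insert r ih
  | forCo r a ih => exact Finset.insert_subset_insert r ih

theorem eval_v_of_not_mem (a : LP F α) (r : F) (hr : r ∉ a.writes) (s : PS F α) :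
    (eval m w e a s).v r = s.v r := by
  induction a generalizing s with
  | nop => rfl
  | emit a => rfl
  | copy => rfl
  | skip => rfl
  | inc r' =>
    have : r ≠ r' := by simpa [writes] using hr
    simp [eval, PS.set, Function.update_of_ne this]
  | seq a b iha ihb =>
    simp only [writes, Finset.mem_union, not_or] at hr
    rw [eval, ihb hr.2, iha hr.1]
  | loop r' a ih =>
    simp only [writes, Finset.mem_insert, not_or] at hr
    have h1 : ∀ n (s : PS F α), (((fun s => (eval m w e a s).set r'
        ((eval m w e a s).v r' + 1))^[n]) s).v r = s.v r := by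
      intro n
      induction n with
      | zero => intro s; rfl
      | succ n ihn =>
        intro s
        rw [Function.iterate_succ_apply, ihn]
        simp only [PS.set, Function.update_of_ne hr.1]
        exact ih hr.2 s
    rw [eval]
    simp only [PS.set, Function.update_of_ne hr.1]
    exact h1 _ s
  | forReg r' a ih =>
    have h1 : ∀ n (s : PS F α), ((eval m w e a)^[n] s).v r = s.v r := by
      intro n
      induction n with
      | zero => intro s; rfl
      | succ n ihn =>
        intro s
        rw [Function.iterate_succ_apply, ihn]
        exact ih hr s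
    exact h1 _ s
  | forCo r' a ih =>
    have h1 : ∀ n (s : PS F α), ((eval m w e a)^[n] s).v r = s.v r := by
      intro n
      induction n with
      | zero => intro s; rfl
      | succ n ihn =>
        intro s
        rw [Function.iterate_succ_apply, ihn]
        exact ih hr s
    exact h1 _ s

theorem run_opP {d : α} (mem : M) (z z' : F → Zip α) (f : F) (o : Op α)
    (h : Function.update z f (o.app d (z f)) = z') : Run d (opP f o) ⟨mem, z⟩ 1 ⟨mem, z'⟩ := by
  subst h
  exact Run.prim _ _

theorem run_nopP {d : α} (mem : M) (z : F → Zip α) :
    Run d (nopP : Prog M F α) ⟨mem, z⟩ 1 ⟨mem, z⟩ := Run.prim _ _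

theorem run_skipP {d : α} (mem : M) (C : F → List α) (I O : F) (w : List α) (U : Finset F)
    (z : F → Zip α) (s : PS F α) : Run d (skipP I : Prog M F α) ⟨mem, toZ C I O w U z s⟩ 1
      ⟨mem, toZ C I O w U z ⟨s.v, s.p + 1, s.o⟩⟩ := by
  apply Run.prim'
  have h1 : (Store.reads ⟨mem, toZ C I O w U z s⟩ I : Option α) = (atp w s.p).peek := by
    simp [Store.reads, toZ]
  rw [h1]
  rw [atp_peek_isSome]
  by_cases h : s.p < w.length
  · simp only [h, decide_true, if_true, appAct]
    rw [toZ_I, right_atp d w s.p h, update_toZ_I]
  · simp only [h, decide_false, appAct]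
    have : atp w s.p = atp w (s.p + 1) := (atp_succ_of_le w s.p (by omega)).symm
    have h2 := update_toZ_I (C := C) (I := I) (O := O) (w := w) (U := U) (z := z) (s := s) s.p
    have h3 := update_toZ_I (C := C) (I := I) (O := O) (w := w) (U := U) (z := z) (s := s)
      (s.p + 1)
    rw [← this, h2] at h3
    simp only [Bool.false_eq_true, if_false]
    exact congrArg _ h3

theorem appAct_none {d : α} (x : Store M F α) (m : M) : appAct d x (m, none) = ⟨m, x.z⟩ := rfl

/-- Marking a ruler. -/
theorem getElem?_set_rep (one mk : α) (n v j : ℕ) (hv : v < n) :
    ((List.replicate n one).set v mk)[j]? =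
      if j = v then some mk else if j < n then some one else none := by
  rw [List.getElem?_set]
  by_cases h : v = j
  · subst h
    simp [hv]
  · rw [if_neg h, if_neg (Ne.symm h), List.getElem?_replicate]

theorem set_set_rep (one mk : α) (n v : ℕ) :
    ((List.replicate n one).set v mk).set v one = List.replicate n one := by
  rw [List.set_set]
  apply List.ext_getElem
  · simp
  · intro i h1 h2
    simp

theorem iterate_eval_v (a : LP F α) (r : F) (hr : r ∉ a.writes) (j : ℕ) (s : PS F α) :
    ((eval m w e a)^[j] s).v r = s.v r := by
  induction j generalizing s with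
  | zero => rfl
  | succ j ih => rw [Function.iterate_succ_apply, ih, eval_v_of_not_mem m w e a r hr]

theorem run_loop_inv {d : α} {c : M → (F → Option α) → Bool} {p : Prog M F α} (n : ℕ)
    (I : ℕ → Store M F α) (t : ℕ) (hc : ∀ i < n, c (I i).m (I i).reads = true)
    (hn : c (I n).m (I n).reads = false)
    (h : ∀ i < n, Run d p (I i) t (I (i + 1))) (s s' : Store M F α) (hs : I 0 = s)
    (hs' : I n = s') : Run d (.loop c p) s (n * (t + 1) + 1) s' := by
  subst hs
  subst hs'
  exact Run.loop_const n I t hc hn h

/-- Correctness of the compilation. -/
theorem compile_run [DecidableEq α] {d : α} (C : F → List α) (I O : F) (hIO : O ≠ I) (w : List α)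
    (one mk e : α) (hmk : one ≠ mk) (mem : M) (a : LP F α) (hwf : a.WF) (U : Finset F)
    (hU : a.uses ⊆ U) (hI : I ∉ U) (hO : O ∉ U)
    (hC : ∀ r ∈ a.marks, C r = List.replicate (C r).length one) (z : F → Zip α) (s : PS F α)
    (hs : ∀ r ∈ a.uses, s.v r < (C r).length) :
    Run d (compile I O one mk e a) ⟨mem, toZ C I O w U z s⟩ (bd (fun f => (C f).length) a)
      ⟨mem, toZ C I O w U z (eval (fun f => (C f).length) w e a s)⟩ ∧
    ∀ r ∈ a.uses, (eval (fun f => (C f).length) w e a s).v r < (C r).length := by
  set m : F → ℕ := fun f => (C f).length with hm
  induction a generalizing U z s with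
  | nop => exact ⟨run_nopP mem _, hs⟩
  | emit a =>
    refine ⟨?_, hs⟩
    refine Run.seq (t := 1) (t' := 1) (run_opP mem _ _ O (.write a) rfl)
      (run_opP mem _ _ O .right ?_)
    rw [Function.update_idem, Function.update_self, toZ_O hIO]
    have : (Op.app d .right (Op.app d (.write a) ⟨s.o.reverse, []⟩) : Zip α) =
        ⟨(s.o ++ [a]).reverse, []⟩ := by simp [Op.app]
    rw [this, update_toZ_O hIO]
    rfl
  | copy =>
    refine ⟨?_, hs⟩
    have h1 : (Store.reads ⟨mem, toZ C I O w U z s⟩ I : Option α) = w[s.p]? := by
      simp [Store.reads, toZ, atp_peek]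
    refine Run.seq (t := 1) (t' := 2) (Run.prim _ _)
      (Run.seq (t := 1) (t' := 1) (run_opP mem _ _ O .right rfl) ?_)
    simp only [h1]
    rw [Function.update_idem, Function.update_self, toZ_O hIO]
    have : (Op.app d .right (Op.app d (.write ((w[s.p]?).getD e)) ⟨s.o.reverse, []⟩) : Zip α) =
        ⟨(s.o ++ [(w[s.p]?).getD e]).reverse, []⟩ := by simp [Op.app]
    rw [this, update_toZ_O hIO]
    exact run_skipP mem C I O w U z _
  | skip => exact ⟨run_skipP mem C I O w U z s, hs⟩
  | inc r =>
    have hr : r ∈ U := hU (by simp [uses])
    have hrI : r ≠ I := fun h => hI (h ▸ hr)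
    have hrO : r ≠ O := fun h => hO (h ▸ hr)
    have hv : s.v r < (C r).length := hs r (by simp [uses])
    have h1 : Run d (opP r .right : Prog M F α) ⟨mem, toZ C I O w U z s⟩ 1
        ⟨mem, toZ C I O w U z (s.set r (s.v r + 1))⟩ := by
      apply run_opP
      rw [toZ_mem hr hrI hrO, right_atp d _ _ hv, update_toZ_mem hr hrI hrO]
    refine ⟨Run.seq (t := 1) (t' := 2) h1 ?_, ?_⟩
    · by_cases hlt : s.v r + 1 < (C r).length
      · refine Run.iteF (t := 1) ?_ ?_
        · have : (Store.reads ⟨mem, toZ C I O w U z (s.set r (s.v r + 1))⟩ r : Option α) =
              (atp (C r) (s.v r + 1)).peek := by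
            simp [Store.reads, toZ_mem hr hrI hrO, PS.set]
          simp only [this]
          rw [atp_peek, List.getElem?_eq_getElem hlt]
          rfl
        · have : (eval m w e (inc r) s) = s.set r (s.v r + 1) := by
            simp only [eval, hm]
            rw [Nat.mod_eq_of_lt hlt]
          rw [this]
          exact run_nopP mem _
      · have hEq : s.v r + 1 = (C r).length := by omega
        refine Run.iteT (t := 1) ?_ ?_
        · have : (Store.reads ⟨mem, toZ C I O w U z (s.set r (s.v r + 1))⟩ r : Option α) =
              (atp (C r) (s.v r + 1)).peek := by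
            simp [Store.reads, toZ_mem hr hrI hrO, PS.set]
          simp only [this]
          rw [atp_peek, List.getElem?_eq_none (by omega)]
          rfl
        · have h2 : (eval m w e (inc r) s) = s.set r 0 := by
            simp only [eval, hm]
            rw [hEq, Nat.mod_self]
          rw [h2]
          apply run_opP
          rw [toZ_mem hr hrI hrO, rew_atp, update_toZ_mem hr hrI hrO]
          simp [PS.set]
    · intro r' hr'
      have : r' = r := by simpa [uses] using hr'
      subst this
      simp only [eval, PS.set, Function.update_self, hm]
      exact Nat.mod_lt _ (by omega)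
  | seq a b iha ihb =>
    have h1 := iha hwf.1 U (fun x hx => hU (Finset.mem_union_left _ hx)) hI hO
      (fun r hr => hC r (Finset.mem_union_left _ hr)) z s
      (fun r hr => hs r (Finset.mem_union_left _ hr))
    have hvb : ∀ r ∈ b.uses, (eval m w e a s).v r < (C r).length := by
      intro r hr
      by_cases hra : r ∈ a.uses
      · exact h1.2 r hra
      · rw [eval_v_of_not_mem m w e a r (fun h => hra (writes_subset a h))]
        exact hs r (Finset.mem_union_right _ hr)
    have h2 := ihb hwf.2 U (fun x hx => hU (Finset.mem_union_right _ hx)) hI hO
      (fun r hr => hC r (Finset.mem_union_right _ hr)) z (eval m w e a s) hvb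
    refine ⟨Run.seq h1.1 h2.1, ?_⟩
    intro r hr
    by_cases hrb : r ∈ b.uses
    · exact h2.2 r hrb
    · show (eval m w e b (eval m w e a s)).v r < _
      rw [eval_v_of_not_mem m w e b r (fun h => hrb (writes_subset b h))]
      have hra : r ∈ a.uses := by
        simp only [uses, Finset.mem_union] at hr
        tauto
      exact h1.2 r hra
  | loop r a ih =>
    have hr : r ∈ U := hU (by simp [uses])
    have hrI : r ≠ I := fun h => hI (h ▸ hr)
    have hrO : r ≠ O := fun h => hO (h ▸ hr)
    have hv : s.v r < (C r).length := hs r (by simp [uses])
    set g : PS F α → PS F α := fun s => (eval m w e a s).set r ((eval m w e a s).v r + 1) with hg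
    have key1 : ∀ t, (g t).v r = t.v r + 1 := by
      intro t
      simp only [hg, PS.set, Function.update_self]
      rw [eval_v_of_not_mem m w e a r hwf.1]
    have key2 : ∀ t r', r' ≠ r → (g t).v r' = (eval m w e a t).v r' := by
      intro t r' h
      simp only [hg, PS.set, Function.update_of_ne h]
    -- the values along the loop
    have hgr : ∀ i, (g^[i] s).v r = s.v r + i := by
      intro i
      induction i with
      | zero => rfl
      | succ i ihi =>
        rw [Function.iterate_succ_apply', key1, ihi]
        rfl
    have hgu : ∀ i ≤ (C r).length - s.v r, (∀ r' ∈ a.uses, r' ≠ r →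
        (g^[i] s).v r' < (C r').length) := by
      intro i
      induction i with
      | zero => intro _ r' hr' _; exact hs r' (Finset.mem_insert_of_mem hr')
      | succ i ihi =>
        intro hi r' hr' hne
        rw [Function.iterate_succ_apply', key2 _ _ hne]
        have h2 := (ih hwf.2 U (fun x hx => hU (Finset.mem_insert_of_mem hx)) hI hO hC z (g^[i] s)
          ?_).2 r' hr'
        · exact h2
        · intro r'' hr''
          by_cases h3 : r'' = r
          · subst h3
            rw [hgr]
            omega
          · exact ihi (by omega) r'' hr'' h3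
    have hga : ∀ i < (C r).length - s.v r, ∀ r' ∈ a.uses, (g^[i] s).v r' < (C r').length := by
      intro i hi r' hr'
      by_cases h3 : r' = r
      · subst h3
        rw [hgr]
        omega
      · exact hgu i (by omega) r' hr' h3
    refine ⟨?_, ?_⟩
    · have hloop : Run d (.loop (fun _ x => (x r).isSome)
          (.seq (compile I O one mk e a) (opP r .right)) : Prog M F α)
          ⟨mem, toZ C I O w U z s⟩ (((C r).length - s.v r) * ((bd m a + 1) + 1) + 1)
          ⟨mem, toZ C I O w U z (g^[(C r).length - s.v r] s)⟩ := by
        refine run_loop_inv ((C r).length - s.v r)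
          (fun i => ⟨mem, toZ C I O w U z (g^[i] s)⟩) (bd m a + 1) ?_ ?_ ?_ _ _ rfl rfl
        · intro i hi
          simp only [Store.reads]
          rw [toZ_mem hr hrI hrO, atp_peek_isSome, hgr]
          simp only [decide_eq_true_eq]
          omega
        · simp only [Store.reads]
          rw [toZ_mem hr hrI hrO, atp_peek_isSome, hgr]
          simp only [decide_eq_false_iff_not]
          omega
        · intro i hi
          have h2 := (ih hwf.2 U (fun x hx => hU (Finset.mem_insert_of_mem hx)) hI hO hC z
            (g^[i] s) (hga i hi)).1
          refine Run.seq h2 ?_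
          apply run_opP
          rw [toZ_mem hr hrI hrO, right_atp, update_toZ_mem hr hrI hrO]
          · rw [Function.iterate_succ_apply']
          · rw [eval_v_of_not_mem m w e a r hwf.1, hgr]
            omega
      have hrew : Run d (opP r .rew : Prog M F α)
          ⟨mem, toZ C I O w U z (g^[(C r).length - s.v r] s)⟩ 1
          ⟨mem, toZ C I O w U z ((g^[(C r).length - s.v r] s).set r 0)⟩ := by
        apply run_opP
        rw [toZ_mem hr hrI hrO, rew_atp, update_toZ_mem hr hrI hrO]
      refine (Run.seq hloop hrew).mono ?_
      show _ ≤ (C r).length * (bd m a + 2) + 2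
      have : ((C r).length - s.v r) * (bd m a + 2) ≤ (C r).length * (bd m a + 2) :=
        Nat.mul_le_mul_right _ (by omega)
      have h3 : bd m a + 1 + 1 = bd m a + 2 := rfl
      rw [h3]
      omega
    · intro r' hr'
      show ((g^[(C r).length - s.v r] s).set r 0).v r' < _
      by_cases h3 : r' = r
      · subst h3
        simp only [PS.set, Function.update_self]
        omega
      · simp only [PS.set]
        rw [Function.update_of_ne h3]
        apply hgu _ le_rfl _ _ h3
        simpa [uses, h3] using hr'
  | forReg r a ih =>
    have hr : r ∈ U := hU (by simp [uses])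
    have hrI : r ≠ I := fun h => hI (h ▸ hr)
    have hrO : r ≠ O := fun h => hO (h ▸ hr)
    have hv : s.v r < (C r).length := hs r (by simp [uses])
    have hru : r ∉ a.uses := hwf.1
    have hrw : r ∉ a.writes := fun h => hru (writes_subset a h)
    have hrU' : r ∉ U.erase r := by simp
    have hCr : C r = List.replicate (C r).length one := hC r (by simp [marks])
    have hU' : a.uses ⊆ U.erase r := by
      intro x hx
      rw [Finset.mem_erase]
      exact ⟨fun h => hru (h ▸ hx), hU (Finset.mem_insert_of_mem hx)⟩
    set n := s.v r with hn
    set C' := (C r).set n mk with hC'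
    have hC'j : ∀ j, C'[j]? = if j = n then some mk else if j < (C r).length then some one
        else none := by
      intro j
      rw [hC', hCr, getElem?_set_rep one mk _ n j hv, List.length_replicate]
    have hC'l : C'.length = (C r).length := by simp [hC']
    have hq : ∀ (j : ℕ) (s' : PS F α), (Store.reads ⟨mem, toZ C I O w (U.erase r)
        (Function.update z r (atp C' j)) s'⟩ r : Option α) =
        if j = n then some mk else if j < (C r).length then some one else none := by
      intro j s'
      simp only [Store.reads]
      rw [toZ_not_mem hrU' hrI hrO, Function.update_self, atp_peek, hC'j]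
    have hback : C'.set n one = C r := by
      rw [hC', hCr, set_set_rep]
    have ih' := fun j s hs => ih hwf.2 (U.erase r) hU' (fun h => hI (Finset.mem_of_mem_erase h))
      (fun h => hO (Finset.mem_of_mem_erase h))
      (fun r' hr' => hC r' (Finset.mem_insert_of_mem hr'))
      (Function.update z r (atp C' j)) s hs
    have hit : ∀ j, ∀ r' ∈ a.uses, ((eval m w e a)^[j] s).v r' < (C r').length := by
      intro j
      induction j with
      | zero => intro r' hr'; exact hs r' (Finset.mem_insert_of_mem hr')
      | succ j ihj =>
        rw [Function.iterate_succ_apply']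
        exact (ih' 0 _ ihj).2
    refine ⟨?_, ?_⟩
    · have e1 : Run d (opP r (.write mk) : Prog M F α) ⟨mem, toZ C I O w U z s⟩ 1
          ⟨mem, toZ C I O w (U.erase r) (Function.update z r (atp C' n)) s⟩ := by
        apply run_opP
        rw [toZ_mem hr hrI hrO, write_atp d _ _ _ hv, toZ_erase hr hrI hrO]
      have e2 : Run d (opP r .rew : Prog M F α)
          ⟨mem, toZ C I O w (U.erase r) (Function.update z r (atp C' n)) s⟩ 1
          ⟨mem, toZ C I O w (U.erase r) (Function.update z r (atp C' 0)) s⟩ := by
        apply run_opP
        rw [toZ_not_mem hrU' hrI hrO, Function.update_self, rew_atp, update_toZ_bg hrU' hrI hrO,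
          Function.update_idem]
      have e3 : Run d (.loop (fun _ x => decide (x r ≠ some mk))
          (.seq (compile I O one mk e a) (opP r .right)) : Prog M F α)
          ⟨mem, toZ C I O w (U.erase r) (Function.update z r (atp C' 0)) s⟩
          (n * ((bd m a + 1) + 1) + 1)
          ⟨mem, toZ C I O w (U.erase r) (Function.update z r (atp C' n))
            ((eval m w e a)^[n] s)⟩ := by
        refine run_loop_inv n (fun j => ⟨mem, toZ C I O w (U.erase r)
          (Function.update z r (atp C' j)) ((eval m w e a)^[j] s)⟩) (bd m a + 1) ?_ ?_ ?_
            _ _ rfl rfl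
        · intro j hj
          rw [decide_eq_true_eq, hq, if_neg (by omega), if_pos (by omega)]
          simpa using hmk
        · rw [decide_eq_false_iff_not, hq, if_pos rfl]
          simp
        · intro j hj
          refine Run.seq (ih' j _ (hit j)).1 ?_
          apply run_opP
          rw [toZ_not_mem hrU' hrI hrO, Function.update_self, right_atp, update_toZ_bg hrU' hrI hrO,
            Function.update_idem, Function.iterate_succ_apply']
          omega
      have e4 : Run d (opP r (.write one) : Prog M F α)
          ⟨mem, toZ C I O w (U.erase r) (Function.update z r (atp C' n))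
            ((eval m w e a)^[n] s)⟩ 1
          ⟨mem, toZ C I O w U z ((eval m w e a)^[n] s)⟩ := by
        apply run_opP
        rw [toZ_not_mem hrU' hrI hrO, Function.update_self, write_atp d _ _ _ (by omega), hback,
          ← toZ_erase hr hrI hrO, Function.update_idem, update_toZ_mem hr hrI hrO]
        congr 1
        apply PS.ext
        · simp only [PS.set]
          have : ((eval m w e a)^[n] s).v r = n := iterate_eval_v m w e a r hrw n s
          conv_rhs => rw [← Function.update_eq_self r ((eval m w e a)^[n] s).v]
          rw [this]
        · rfl
        · rfl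
      refine (Run.seq e1 (Run.seq e2 (Run.seq e3 e4))).mono ?_
      show _ ≤ (C r).length * (bd m a + 2) + 4
      have : n * (bd m a + 2) ≤ (C r).length * (bd m a + 2) :=
        Nat.mul_le_mul_right _ (by omega)
      have h3 : bd m a + 1 + 1 = bd m a + 2 := rfl
      rw [h3]
      omega
    · intro r' hr'
      show ((eval m w e a)^[n] s).v r' < _
      by_cases h3 : r' = r
      · subst h3
        rw [iterate_eval_v m w e a r' hrw n s]
        exact hv
      · apply hit
        simpa [uses, h3] using hr'
  | forCo r a ih =>
    have hr : r ∈ U := hU (by simp [uses])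
    have hrI : r ≠ I := fun h => hI (h ▸ hr)
    have hrO : r ≠ O := fun h => hO (h ▸ hr)
    have hv : s.v r < (C r).length := hs r (by simp [uses])
    have hru : r ∉ a.uses := hwf.1
    have hrw : r ∉ a.writes := fun h => hru (writes_subset a h)
    have hrU' : r ∉ U.erase r := by simp
    have hCr : C r = List.replicate (C r).length one := hC r (by simp [marks])
    have hU' : a.uses ⊆ U.erase r := by
      intro x hx
      rw [Finset.mem_erase]
      exact ⟨fun h => hru (h ▸ hx), hU (Finset.mem_insert_of_mem hx)⟩
    set n := s.v r with hn
    set C' := (C r).set n mk with hC'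
    have hC'j : ∀ j, C'[j]? = if j = n then some mk else if j < (C r).length then some one
        else none := by
      intro j
      rw [hC', hCr, getElem?_set_rep one mk _ n j hv, List.length_replicate]
    have hC'l : C'.length = (C r).length := by simp [hC']
    have hq : ∀ (j : ℕ) (s' : PS F α), (Store.reads ⟨mem, toZ C I O w (U.erase r)
        (Function.update z r (atp C' j)) s'⟩ r : Option α) =
        if j = n then some mk else if j < (C r).length then some one else none := by
      intro j s'
      simp only [Store.reads]
      rw [toZ_not_mem hrU' hrI hrO, Function.update_self, atp_peek, hC'j]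
    have hback : C'.set n one = C r := by
      rw [hC', hCr, set_set_rep]
    have ih' := fun j s hs => ih hwf.2 (U.erase r) hU' (fun h => hI (Finset.mem_of_mem_erase h))
      (fun h => hO (Finset.mem_of_mem_erase h))
      (fun r' hr' => hC r' (Finset.mem_insert_of_mem hr'))
      (Function.update z r (atp C' j)) s hs
    have hit : ∀ j, ∀ r' ∈ a.uses, ((eval m w e a)^[j] s).v r' < (C r').length := by
      intro j
      induction j with
      | zero => intro r' hr'; exact hs r' (Finset.mem_insert_of_mem hr')
      | succ j ihj =>
        rw [Function.iterate_succ_apply']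
        exact (ih' 0 _ ihj).2
    set k := (C r).length - n with hk
    refine ⟨?_, ?_⟩
    · have e1 : Run d (opP r (.write mk) : Prog M F α) ⟨mem, toZ C I O w U z s⟩ 1
          ⟨mem, toZ C I O w (U.erase r) (Function.update z r (atp C' n)) s⟩ := by
        apply run_opP
        rw [toZ_mem hr hrI hrO, write_atp d _ _ _ hv, toZ_erase hr hrI hrO]
      have e2 : Run d (.loop (fun _ x => (x r).isSome)
          (.seq (compile I O one mk e a) (opP r .right)) : Prog M F α)
          ⟨mem, toZ C I O w (U.erase r) (Function.update z r (atp C' n)) s⟩
          (k * ((bd m a + 1) + 1) + 1)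
          ⟨mem, toZ C I O w (U.erase r) (Function.update z r (atp C' (n + k)))
            ((eval m w e a)^[k] s)⟩ := by
        refine run_loop_inv k (fun j => ⟨mem, toZ C I O w (U.erase r)
          (Function.update z r (atp C' (n + j))) ((eval m w e a)^[j] s)⟩) (bd m a + 1) ?_ ?_ ?_
            _ _ rfl rfl
        · intro j hj
          simp only [Store.reads]
          rw [toZ_not_mem hrU' hrI hrO, Function.update_self, atp_peek_isSome]
          simp only [decide_eq_true_eq]
          omega
        · simp only [Store.reads]
          rw [toZ_not_mem hrU' hrI hrO, Function.update_self, atp_peek_isSome]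
          simp only [decide_eq_false_iff_not]
          omega
        · intro j hj
          refine Run.seq (ih' (n + j) _ (hit j)).1 ?_
          apply run_opP
          rw [toZ_not_mem hrU' hrI hrO, Function.update_self, right_atp, update_toZ_bg hrU' hrI hrO,
            Function.update_idem, Function.iterate_succ_apply']
          · rfl
          · omega
      have e3 : Run d (opP r .rew : Prog M F α)
          ⟨mem, toZ C I O w (U.erase r) (Function.update z r (atp C' (n + k)))
            ((eval m w e a)^[k] s)⟩ 1
          ⟨mem, toZ C I O w (U.erase r) (Function.update z r (atp C' 0))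
            ((eval m w e a)^[k] s)⟩ := by
        apply run_opP
        rw [toZ_not_mem hrU' hrI hrO, Function.update_self, rew_atp, update_toZ_bg hrU' hrI hrO,
          Function.update_idem]
      have e4 : Run d (.loop (fun _ x => decide (x r ≠ some mk)) (opP r .right) : Prog M F α)
          ⟨mem, toZ C I O w (U.erase r) (Function.update z r (atp C' 0))
            ((eval m w e a)^[k] s)⟩
          (n * (1 + 1) + 1)
          ⟨mem, toZ C I O w (U.erase r) (Function.update z r (atp C' n))
            ((eval m w e a)^[k] s)⟩ := by
        refine run_loop_inv n (fun j => ⟨mem, toZ C I O w (U.erase r)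
          (Function.update z r (atp C' j)) ((eval m w e a)^[k] s)⟩) 1 ?_ ?_ ?_ _ _ rfl rfl
        · intro j hj
          rw [decide_eq_true_eq, hq, if_neg (by omega), if_pos (by omega)]
          simpa using hmk
        · rw [decide_eq_false_iff_not, hq, if_pos rfl]
          simp
        · intro j hj
          apply run_opP
          rw [toZ_not_mem hrU' hrI hrO, Function.update_self, right_atp, update_toZ_bg hrU' hrI hrO,
            Function.update_idem]
          omega
      have e5 : Run d (opP r (.write one) : Prog M F α)
          ⟨mem, toZ C I O w (U.erase r) (Function.update z r (atp C' n))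
            ((eval m w e a)^[k] s)⟩ 1
          ⟨mem, toZ C I O w U z ((eval m w e a)^[k] s)⟩ := by
        apply run_opP
        rw [toZ_not_mem hrU' hrI hrO, Function.update_self, write_atp d _ _ _ (by omega), hback,
          ← toZ_erase hr hrI hrO, Function.update_idem, update_toZ_mem hr hrI hrO]
        congr 1
        apply PS.ext
        · simp only [PS.set]
          have : ((eval m w e a)^[k] s).v r = n := iterate_eval_v m w e a r hrw k s
          conv_rhs => rw [← Function.update_eq_self r ((eval m w e a)^[k] s).v]
          rw [this]
        · rfl
        · rfl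
      refine (Run.seq e1 (Run.seq e2 (Run.seq e3 (Run.seq e4 e5)))).mono ?_
      show _ ≤ (C r).length * (bd m a + 4) + 5
      have h3 : bd m a + 1 + 1 = bd m a + 2 := rfl
      rw [h3]
      have h4 : k * (bd m a + 2) ≤ (C r).length * (bd m a + 2) :=
        Nat.mul_le_mul_right _ (by omega)
      have h5 : (C r).length * (bd m a + 4) = (C r).length * (bd m a + 2) + (C r).length * 2 := by
        ring
      omega
    · intro r' hr'
      show ((eval m w e a)^[k] s).v r' < _
      by_cases h3 : r' = r
      · subst h3
        rw [iterate_eval_v m w e a r' hrw k s]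
        exact hv
      · apply hit
        simpa [uses, h3] using hr'

end LP

end Vale.Agent.P338.R2.H806
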